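import Vale.Agent.P073.RED.GlueH225

/-!
# P073, block RED: the reduction (`SpecRED`)
-/

namespace Vale.Agent.P073.RED

open MeasureTheory Set Filter Topology Metric Vale.Agent.P073.St
open Vale.Agent.P073.SQ (ev)
open Vale.Agent.P073.AB (cl err FinDist)
open Vale.Agent.P073.PK (cl_apply)
open scoped ContDiff ENNReal

namespace Red225

open GlueH

/-- the derivative of a diffeomorphism is injective -/
theorem fderiv_inj {D E : Set V} (hD : IsOpen D) {g : V → V} (hg : IsDiffeo D E g) {x : V}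
    (hx : x ∈ D) {v : V} (hv : fderiv ℝ g x v = 0) : v = 0 := by
  obtain ⟨h, ⟨h1, h2⟩, h3, h4⟩ := hg
  have hgs : ContDiffOn ℝ ∞ g D := AB.smooth_of_sm h3
  have hhs : ContDiffOn ℝ ∞ h E := AB.smooth_of_sm h4
  have a1 : HasFDerivAt g (fderiv ℝ g x) x :=
    ((hgs.differentiableOn (by simp)).differentiableAt (hD.mem_nhds hx)).hasFDerivAt
  have a2 : HasFDerivWithinAt h (fderivWithin ℝ h E (g x)) E (g x) :=
    (hhs.differentiableOn (by simp) _ (h1 x hx).1).hasFDerivWithinAt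
  have a3 : HasFDerivWithinAt (h ∘ g) ((fderivWithin ℝ h E (g x)).comp (fderiv ℝ g x)) D x :=
    a2.comp x a1.hasFDerivWithinAt fun y hy => (h1 y hy).1
  have a4 : HasFDerivWithinAt (h ∘ g) (ContinuousLinearMap.id ℝ V) D x :=
    (hasFDerivWithinAt_id x D).congr (fun y hy => (h1 y hy).2) (h1 x hx).2
  have a5 := (a3.hasFDerivAt (hD.mem_nhds hx)).unique (a4.hasFDerivAt (hD.mem_nhds hx))
  have a6 := congrArg (fun T : V →L[ℝ] V => T v) a5
  simp only [ContinuousLinearMap.coe_comp, Function.comp_apply, hv, map_zero,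
    ContinuousLinearMap.coe_id', id_eq] at a6
  exact a6.symm

theorem cl_eq_ap (A : Mat) (v : V) : cl A v = ap A v := by
  funext i
  rw [cl_apply]
  rfl

variable {p : ℝ} {Ω Λ : Set V} {f : V → V} {F : V → Mat} {ι : Type} {ε : ℝ} {K : ι → Set V}
  {u : ι → V → V} {U : ι → V → Mat}

/-- the glued map has finite distortion -/
theorem finDist (hC : ∀ i, Cell p Ω f F ε (K i) (u i) (U i))
    (hd : ∀ i j, i ≠ j → Disjoint (K i) (K j))
    (hn : volume {x | x ∈ Ω ∧ LowRank (F x) ∧ ∀ i, x ∉ interior (K i)} = 0) :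
    FinDist Ω (fun x => F x + glue K U x) := by
  have h0 : ∀ᵐ x ∂(volume : Measure V), ¬ (x ∈ Ω ∧ LowRank (F x) ∧ ∀ i, x ∉ interior (K i)) :=
    measure_eq_zero_iff_ae_notMem.1 hn
  filter_upwards [h0] with x hx hxΩ
  by_cases hi : ∃ i, x ∈ interior (K i)
  · obtain ⟨i, hi⟩ := hi
    right
    intro v hv
    rw [glue_in hd hi, ← cl_eq_ap, (hC i).der x hi] at hv
    exact fderiv_inj isOpen_interior (hC i).diffeo hi hv
  · push Not at hi
    rw [glue_off hi]
    have h1 : ¬ LowRank (F x) := fun h => hx ⟨hxΩ, h, hi⟩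
    unfold LowRank at h1
    rw [not_and_or, not_not, not_not] at h1
    simpa using h1

/-- sum of the volumes of the cells -/
theorem tsum_volume_le [Countable ι] (hC : ∀ i, Cell p Ω f F ε (K i) (u i) (U i))
    (hd : ∀ i j, i ≠ j → Disjoint (K i) (K j)) : ∑' i, volume (K i) ≤ volume Ω := by
  rw [← measure_iUnion (fun i j hij => hd i j hij) fun i => (hC i).comp.isClosed.measurableSet]
  exact measure_mono (iUnion_subset fun i => (hC i).sub)

/-- energy of the glued perturbation -/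
theorem energy_le [Countable ι] (hp : 1 ≤ p) (hC : ∀ i, Cell p Ω f F ε (K i) (u i) (U i))
    (hd : ∀ i j, i ≠ j → Disjoint (K i) (K j)) :
    ∑ j, ∫⁻ x in Ω, ENNReal.ofReal (‖cl (glue K U x) (ev j)‖ ^ p) ≤
      ENNReal.ofReal ε * volume Ω := by
  have hp0 : 0 < p := by linarith
  have h1 : ∀ j, ∫⁻ x in Ω, ENNReal.ofReal (‖cl (glue K U x) (ev j)‖ ^ p) ≤
      ∑' i, ∫⁻ x in K i, ENNReal.ofReal (‖cl (U i x) (ev j)‖ ^ p) := by
    intro j
    have hm : MeasurableSet (⋃ i, interior (K i)) :=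
      (isOpen_iUnion fun i => isOpen_interior).measurableSet
    have e1 : (⋃ i, interior (K i)).indicator
        (fun x => ENNReal.ofReal (‖cl (glue K U x) (ev j)‖ ^ p)) =
        fun x => ENNReal.ofReal (‖cl (glue K U x) (ev j)‖ ^ p) := by
      funext x
      by_cases hx : x ∈ ⋃ i, interior (K i)
      · rw [indicator_of_mem hx]
      · rw [indicator_of_notMem hx]
        have h2 : ∀ i, x ∉ interior (K i) := fun i h => hx (mem_iUnion.2 ⟨i, h⟩)
        have h3 : cl (0 : Mat) (ev j) = 0 := by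
          funext i; rw [cl_apply]; simp
        rw [glue_off h2, h3, norm_zero, Real.zero_rpow hp0.ne', ENNReal.ofReal_zero]
    calc ∫⁻ x in Ω, ENNReal.ofReal (‖cl (glue K U x) (ev j)‖ ^ p)
        ≤ ∫⁻ x, ENNReal.ofReal (‖cl (glue K U x) (ev j)‖ ^ p) := setLIntegral_le_lintegral _ _
      _ = ∫⁻ x in ⋃ i, interior (K i), ENNReal.ofReal (‖cl (glue K U x) (ev j)‖ ^ p) := by
          rw [← lintegral_indicator hm, e1]
      _ ≤ ∑' i, ∫⁻ x in interior (K i), ENNReal.ofReal (‖cl (glue K U x) (ev j)‖ ^ p) :=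
          lintegral_iUnion_le _ _
      _ ≤ _ := by
          refine ENNReal.tsum_le_tsum fun i => ?_
          calc ∫⁻ x in interior (K i), ENNReal.ofReal (‖cl (glue K U x) (ev j)‖ ^ p)
              = ∫⁻ x in interior (K i), ENNReal.ofReal (‖cl (U i x) (ev j)‖ ^ p) :=
                setLIntegral_congr_fun isOpen_interior.measurableSet fun x hx => by
                  simp only [glue_in hd hx]
            _ ≤ _ := lintegral_mono_set interior_subset
  calc ∑ j, ∫⁻ x in Ω, ENNReal.ofReal (‖cl (glue K U x) (ev j)‖ ^ p)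
      ≤ ∑ j, ∑' i, ∫⁻ x in K i, ENNReal.ofReal (‖cl (U i x) (ev j)‖ ^ p) :=
        Finset.sum_le_sum fun j _ => h1 j
    _ = ∑' i, ∑ j, ∫⁻ x in K i, ENNReal.ofReal (‖cl (U i x) (ev j)‖ ^ p) :=
        (Summable.tsum_finsetSum fun _ _ => ENNReal.summable).symm
    _ ≤ ∑' i, ENNReal.ofReal ε * volume (K i) := ENNReal.tsum_le_tsum fun i => (hC i).small
    _ = ENNReal.ofReal ε * ∑' i, volume (K i) := ENNReal.tsum_mul_left
    _ ≤ ENNReal.ofReal ε * volume Ω := by gcongr; exact tsum_volume_le hC hd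

/-- size of the glued perturbation -/
theorem norm_glue_le (hε : 0 ≤ ε) (hC : ∀ i, Cell p Ω f F ε (K i) (u i) (U i))
    (hd : ∀ i j, i ≠ j → Disjoint (K i) (K j)) (x : V) : ‖glue K u x‖ ≤ ε := by
  by_cases hi : ∃ i, x ∈ interior (K i)
  · obtain ⟨i, hi⟩ := hi
    rw [glue_in hd hi]
    exact (hC i).near x
  · push Not at hi
    rw [glue_off hi, norm_zero]
    exact hε

theorem sup_le (hp : 1 ≤ p) (hε : 0 ≤ ε) (hε1 : ε ≤ 1)
    (hC : ∀ i, Cell p Ω f F ε (K i) (u i) (U i)) (hd : ∀ i j, i ≠ j → Disjoint (K i) (K j)) :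
    ∫⁻ x in Ω, ENNReal.ofReal (‖glue K u x‖ ^ p) ≤ ENNReal.ofReal ε * volume Ω := by
  calc ∫⁻ x in Ω, ENNReal.ofReal (‖glue K u x‖ ^ p)
      ≤ ∫⁻ _ in Ω, ENNReal.ofReal ε := by
        refine lintegral_mono fun x => ENNReal.ofReal_le_ofReal ?_
        have h1 := norm_glue_le hε hC hd x
        calc ‖glue K u x‖ ^ p ≤ ‖glue K u x‖ ^ (1:ℝ) :=
              Real.rpow_le_rpow_of_exponent_ge' (norm_nonneg _) (h1.trans hε1) zero_le_one hp
          _ ≤ ε := by rw [Real.rpow_one]; exact h1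
    _ = _ := by rw [lintegral_const, Measure.restrict_apply_univ]

end Red225

open Red225 GlueH in
/-- **(RED)** -/
theorem specRED : SpecRED := by
  intro hM1 hFine hVit hGH hGS p Ω Λ f F hp hp2 hΩ hΛ hf hF ε hε
  have hp0 : 0 ≤ p := by linarith
  have hΩt : volume Ω ≠ ⊤ := PK.volume_ne_top_of_domain hΩ
  set m : ℝ := (volume Ω).toReal with hm
  have hm0 : 0 ≤ m := ENNReal.toReal_nonneg
  have hmv : volume Ω = ENNReal.ofReal m := (ENNReal.ofReal_toReal hΩt).symm
  set ε₁ : ℝ := min 1 (ε / (8 * (m + 1))) with hε₁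
  have hε₁0 : 0 < ε₁ := lt_min one_pos (by positivity)
  have hε₁1 : ε₁ ≤ 1 := min_le_left _ _
  obtain ⟨ι, K, u, U, hι, hC, hd, hn⟩ := hVit p Ω f F ε₁ hΩ (hFine p Ω Λ f F hp hp2 hΩ hΛ hf hF ε₁
    hε₁0)
  have hf1 := hGH p Ω Λ f F hp hΩ hΛ hf ι hι ε₁ K u U hC hd
  have hF1 := hGS p Ω Λ f F hp hΩ hΛ hf hF ι hι ε₁ K u U hC hd
  obtain ⟨g, hg, hge⟩ := hM1 p Ω Λ _ _ hp hp2 hΩ hΛ hf1 hF1 (finDist hC hd hn) (ε / 4) (by linarith)
  refine ⟨g, hg, ?_⟩
  have hfc : ContinuousOn f Ω := by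
    obtain ⟨_, _, h, _⟩ := hf
    exact h
  have hgc : ContinuousOn (glue K u) Ω := continuousOn_glue hΩ hfc hC hd
  have hmu : AEMeasurable (fun x => ENNReal.ofReal (‖glue K u x‖ ^ p)) (volume.restrict Ω) :=
    ((hgc.aemeasurable hΩ.1.measurableSet).norm.pow_const p).ennreal_ofReal
  have hmU : ∀ j, AEMeasurable (fun x => ENNReal.ofReal (‖cl (glue K U x) (ev j)‖ ^ p))
      (volume.restrict Ω) := by
    intro j
    have h1 : AEMeasurable (fun x => cl (F x + glue K U x) (ev j)) (volume.restrict Ω) :=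
      ((ContinuousLinearMap.apply ℝ V (ev j)).continuous.comp_aestronglyMeasurable
        (PK.IsSob.aesm hF1)).aemeasurable
    have h2 : AEMeasurable (fun x => cl (F x) (ev j)) (volume.restrict Ω) :=
      ((ContinuousLinearMap.apply ℝ V (ev j)).continuous.comp_aestronglyMeasurable
        (PK.IsSob.aesm hF)).aemeasurable
    have e : (fun x => cl (glue K U x) (ev j)) =
        fun x => cl (F x + glue K U x) (ev j) - cl (F x) (ev j) := by
      funext x i
      rw [Pi.sub_apply, cl_apply, cl_apply, cl_apply, ← Finset.sum_sub_distrib]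
      exact Finset.sum_congr rfl fun l _ => by simp only [Pi.add_apply]; ring
    have h3 : AEMeasurable (fun x => cl (glue K U x) (ev j)) (volume.restrict Ω) := by
      rw [e]; exact h1.sub h2
    exact (h3.norm.pow_const p).ennreal_ofReal
  -- the two parts of the error
  have hA : ∫⁻ x in Ω, ENNReal.ofReal (‖g x - f x‖ ^ p) ≤
      2 * ((∫⁻ x in Ω, ENNReal.ofReal (‖g x - (f x + glue K u x)‖ ^ p)) +
        ∫⁻ x in Ω, ENNReal.ofReal (‖glue K u x‖ ^ p)) := by
    rw [← lintegral_add_right' _ hmu, ← lintegral_const_mul' _ _ (by norm_num)]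
    refine lintegral_mono fun x => ?_
    have h1 := AB.add_rpow_le hp hp2 (g x - (f x + glue K u x)) (glue K u x)
    have e : g x - (f x + glue K u x) + glue K u x = g x - f x := by abel
    rwa [e] at h1
  have hB : ∀ j, ∫⁻ x in Ω, ENNReal.ofReal (‖fderiv ℝ g x (ev j) - cl (F x) (ev j)‖ ^ p) ≤
      2 * ((∫⁻ x in Ω, ENNReal.ofReal (‖fderiv ℝ g x (ev j) -
        cl (F x + glue K U x) (ev j)‖ ^ p)) +
        ∫⁻ x in Ω, ENNReal.ofReal (‖cl (glue K U x) (ev j)‖ ^ p)) := by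
    intro j
    rw [← lintegral_add_right' _ (hmU j), ← lintegral_const_mul' _ _ (by norm_num)]
    refine lintegral_mono fun x => ?_
    have h1 := AB.add_rpow_le hp hp2 (fderiv ℝ g x (ev j) - cl (F x + glue K U x) (ev j))
      (cl (glue K U x) (ev j))
    have e : fderiv ℝ g x (ev j) - cl (F x + glue K U x) (ev j) + cl (glue K U x) (ev j) =
        fderiv ℝ g x (ev j) - cl (F x) (ev j) := by
      funext i
      simp only [Pi.sub_apply, Pi.add_apply, cl_apply, add_mul, Finset.sum_add_distrib]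
      ring
    rwa [e] at h1
  have hE : err p Ω f F g ≤ 2 * err p Ω (fun x => f x + glue K u x)
      (fun x => F x + glue K U x) g + 4 * (ENNReal.ofReal ε₁ * volume Ω) := by
    have h1 := sup_le hp hε₁0.le hε₁1 hC hd
    have h2 := energy_le hp hC hd
    unfold err
    calc (∫⁻ x in Ω, ENNReal.ofReal (‖g x - f x‖ ^ p)) +
        ∑ j, ∫⁻ x in Ω, ENNReal.ofReal (‖fderiv ℝ g x (ev j) - cl (F x) (ev j)‖ ^ p)
        ≤ 2 * ((∫⁻ x in Ω, ENNReal.ofReal (‖g x - (f x + glue K u x)‖ ^ p)) +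
          ∫⁻ x in Ω, ENNReal.ofReal (‖glue K u x‖ ^ p)) +
          ∑ j, 2 * ((∫⁻ x in Ω, ENNReal.ofReal (‖fderiv ℝ g x (ev j) -
          cl (F x + glue K U x) (ev j)‖ ^ p)) +
          ∫⁻ x in Ω, ENNReal.ofReal (‖cl (glue K U x) (ev j)‖ ^ p)) :=
          add_le_add hA (Finset.sum_le_sum fun j _ => hB j)
      _ = 2 * ((∫⁻ x in Ω, ENNReal.ofReal (‖g x - (f x + glue K u x)‖ ^ p)) +
          ∑ j, ∫⁻ x in Ω, ENNReal.ofReal (‖fderiv ℝ g x (ev j) -
          cl (F x + glue K U x) (ev j)‖ ^ p)) +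
          2 * ((∫⁻ x in Ω, ENNReal.ofReal (‖glue K u x‖ ^ p)) +
          ∑ j, ∫⁻ x in Ω, ENNReal.ofReal (‖cl (glue K U x) (ev j)‖ ^ p)) := by
          rw [← Finset.mul_sum, Finset.sum_add_distrib]
          ring
      _ ≤ 2 * ((∫⁻ x in Ω, ENNReal.ofReal (‖g x - (f x + glue K u x)‖ ^ p)) +
          ∑ j, ∫⁻ x in Ω, ENNReal.ofReal (‖fderiv ℝ g x (ev j) -
          cl (F x + glue K U x) (ev j)‖ ^ p)) +
          2 * (ENNReal.ofReal ε₁ * volume Ω + ENNReal.ofReal ε₁ * volume Ω) := by gcongr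
      _ = _ := by ring
  refine hE.trans ?_
  have h4 : (4 : ℝ≥0∞) = ENNReal.ofReal 4 := by norm_num
  have h2 : (2 : ℝ≥0∞) = ENNReal.ofReal 2 := by norm_num
  calc 2 * err p Ω (fun x => f x + glue K u x) (fun x => F x + glue K U x) g +
        4 * (ENNReal.ofReal ε₁ * volume Ω)
      ≤ 2 * ENNReal.ofReal (ε / 4) + 4 * (ENNReal.ofReal ε₁ * ENNReal.ofReal m) := by
        rw [hmv]; gcongr
    _ = ENNReal.ofReal (2 * (ε / 4) + 4 * (ε₁ * m)) := by
        rw [ENNReal.ofReal_add (by positivity) (by positivity), ENNReal.ofReal_mul (by norm_num),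
          ENNReal.ofReal_mul (by norm_num), ENNReal.ofReal_mul hε₁0.le, ← h4, ← h2]
    _ ≤ ENNReal.ofReal ε := by
        apply ENNReal.ofReal_le_ofReal
        have h5 : ε₁ * (8 * (m + 1)) ≤ ε := by
          calc ε₁ * (8 * (m + 1)) ≤ ε / (8 * (m + 1)) * (8 * (m + 1)) := by
                gcongr; exact min_le_right _ _
            _ = ε := by field_simp
        nlinarith

end Vale.Agent.P073.RED
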