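import Vale.Agent.P073.RED.Spec
import Mathlib.MeasureTheory.Covering.Vitali

/-!
# RED-B: Vitali covering by good cells
-/

namespace Vale.Agent.P073.RED

open MeasureTheory Set Filter Topology Metric Vale.Agent.P073.St
open scoped ENNReal NNReal

theorem volume_closedBall_le (x : V) {r : ℝ} (hr : 0 < r) {m : ℝ≥0∞}
    (hm : ENNReal.ofReal (r ^ 3) ≤ m) :
    volume (closedBall x (3 * (4 * r))) ≤ ((13824 : ℝ≥0) : ℝ≥0∞) * m := by
  rw [Real.volume_pi_closedBall x (by positivity)]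
  have h : (2 * (3 * (4 * r))) ^ Fintype.card (Fin 3) = 13824 * r ^ 3 := by
    simp only [Fintype.card_fin]; ring
  rw [h, ENNReal.ofReal_mul (by norm_num)]
  have h2 : ENNReal.ofReal 13824 = ((13824 : ℝ≥0) : ℝ≥0∞) := by
    rw [ENNReal.ofReal, Real.toNNReal_ofNat]
  rw [h2]
  gcongr

/-- **(RED-B)** -/
theorem specVit : SpecVit := by
  intro p Ω f F ε hΩ H
  let I : Type := V × ℝ × Set V × (V → V) × (V → Mat)
  let t : Set I := {a | Cell p Ω f F ε a.2.2.1 a.2.2.2.1 a.2.2.2.2 ∧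
    a.2.2.1 ⊆ closedBall a.1 a.2.1 ∧ (interior a.2.2.1).Nonempty ∧
    volume (closedBall a.1 (3 * a.2.1)) ≤ ((13824 : ℝ≥0) : ℝ≥0∞) * volume a.2.2.1}
  let s : Set V := {x | x ∈ Ω ∧ LowRank (F x) ∧ ∃ r₀ > 0, ∀ r, 0 < r → r < r₀ →
      ∃ (K : Set V) (u : V → V) (U : V → Mat), Cell p Ω f F ε K u U ∧ K ⊆ closedBall x (4 * r) ∧
        (interior K).Nonempty ∧ ENNReal.ofReal (r ^ 3) ≤ volume K}
  have hfine : ∀ x ∈ s, ∀ δ > (0 : ℝ), ∃ a ∈ t, a.2.1 ≤ δ ∧ a.1 = x := by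
    rintro x ⟨hx, hl, r₀, hr₀, h⟩ δ hδ
    obtain ⟨K, u, U, h1, h2, h3, h4⟩ := h (min (r₀ / 2) (δ / 4)) (by positivity)
      ((min_le_left _ _).trans_lt (by linarith))
    refine ⟨(x, 4 * min (r₀ / 2) (δ / 4), K, u, U), ⟨h1, h2, h3, ?_⟩, ?_, rfl⟩
    · exact volume_closedBall_le x (by positivity) h4
    · have := min_le_right (r₀ / 2) (δ / 4)
      simp only; linarith
  obtain ⟨w, hw, hwc, hwd, hwn⟩ := Vitali.exists_disjoint_covering_ae volume s t 13824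
    (fun a => a.2.1) (fun a => a.1) (fun a => a.2.2.1) (fun a ha => ha.2.1)
    (fun a ha => ha.2.2.2) (fun a ha => ha.2.2.1) (fun a ha => ha.1.comp.isClosed) hfine
  refine ⟨w, fun a => a.1.2.2.1, fun a => a.1.2.2.2.1, fun a => a.1.2.2.2.2, hwc.to_subtype,
    fun a => (hw a.2).1, fun a b hab => ?_, ?_⟩
  · exact hwd a.2 b.2 fun h => hab (Subtype.ext h)
  · have hfr : volume (⋃ a ∈ w, frontier a.2.2.1) = 0 :=
      (measure_biUnion_null_iff hwc).2 fun a ha => (hw ha).1.null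
    rw [ae_iff] at H
    refine measure_mono_null (t := (s \ ⋃ a ∈ w, a.2.2.1) ∪ (⋃ a ∈ w, frontier a.2.2.1) ∪
      {x | ¬ (x ∈ Ω → LowRank (F x) → ∃ r₀ > 0, ∀ r, 0 < r → r < r₀ →
      ∃ (K : Set V) (u : V → V) (U : V → Mat), Cell p Ω f F ε K u U ∧ K ⊆ closedBall x (4 * r) ∧
        (interior K).Nonempty ∧ ENNReal.ofReal (r ^ 3) ≤ volume K)}) ?_
      (measure_union_null (measure_union_null hwn hfr) H)
    rintro x ⟨hx, hl, hint⟩
    by_cases hs : x ∈ s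
    · left
      by_cases hmem : x ∈ ⋃ a ∈ w, a.2.2.1
      · right
        simp only [mem_iUnion] at hmem ⊢
        obtain ⟨a, ha, hxa⟩ := hmem
        refine ⟨a, ha, ?_⟩
        rw [frontier]
        exact ⟨subset_closure hxa, hint ⟨a, ha⟩⟩
      · exact Or.inl ⟨hs, hmem⟩
    · right
      intro hcon
      exact hs ⟨hx, hl, hcon hx hl⟩

end Vale.Agent.P073.RED
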