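import Vale.Agent.P073.RED.Spec
import Vale.Agent.P073.IoD

/-!
# P073, block RED: the glued map is a homeomorphism (`SpecGlueH`)
-/

namespace Vale.Agent.P073.RED

open MeasureTheory Set Filter Topology Metric Vale.Agent.P073.St
open Vale.Agent.P073.SQ (ev)
open Vale.Agent.P073.AB (cl err FinDist)
open scoped ContDiff ENNReal

namespace GlueH

section glue

variable {ι E : Type} [Zero E] {K : ι → Set V} {u : ι → V → E}

theorem uniq (hd : ∀ i j, i ≠ j → Disjoint (K i) (K j)) {i j : ι} {x : V} (hi : x ∈ K i)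
    (hj : x ∈ K j) : i = j := by
  by_contra h
  exact Set.disjoint_left.1 (hd i j h) hi hj

theorem glue_in (hd : ∀ i j, i ≠ j → Disjoint (K i) (K j)) {i : ι} {x : V}
    (hx : x ∈ interior (K i)) : glue K u x = u i x := by
  have h : ∃ i, x ∈ interior (K i) := ⟨i, hx⟩
  rw [glue, dif_pos h, uniq hd (interior_subset h.choose_spec) (interior_subset hx)]

theorem glue_off {x : V} (hx : ∀ i, x ∉ interior (K i)) : glue K u x = 0 :=
  dif_neg (not_exists.2 hx)

end glue

/-- only finitely many of the sets are large -/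
theorem finite_diam {ι : Type} {K : ι → Set V} {Ω : Set V} (hΩ : IsBoundedDomain Ω)
    (hc : ∀ i, IsCompact (K i)) (hs : ∀ i, K i ⊆ Ω)
    (hfat : ∀ i, ENNReal.ofReal (diam (K i) ^ 3) ≤ 100 * volume (K i))
    (hd : ∀ i j, i ≠ j → Disjoint (K i) (K j)) {η : ℝ} (hη : 0 < η) :
    {i | η ≤ diam (K i)}.Finite := by
  have h0 : (0 : ℝ≥0∞) < ENNReal.ofReal (η ^ 3) / 100 :=
    ENNReal.div_pos (ENNReal.ofReal_pos.2 (by positivity)).ne' (by norm_num)
  have hΩt : volume Ω ≠ ⊤ := PK.volume_ne_top_of_domain hΩ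
  have h1 := Measure.finite_const_le_meas_of_disjoint_iUnion (μ := (volume : Measure V)) h0
    (fun i => (hc i).isClosed.measurableSet) (fun i j hij => hd i j hij)
    (ne_top_of_le_ne_top hΩt (measure_mono (iUnion_subset hs)))
  apply h1.subset
  intro i hi
  rw [mem_ofPred_eq] at hi ⊢
  apply ENNReal.div_le_of_le_mul
  rw [mul_comm]
  exact (ENNReal.ofReal_le_ofReal (by gcongr)).trans (hfat i)

end GlueH

open GlueH

/-- the glued perturbation is continuous in the domain -/
theorem continuousOn_glue {p : ℝ} {Ω : Set V} {f : V → V} {F : V → Mat}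
    (hΩ : IsBoundedDomain Ω) (hf : ContinuousOn f Ω) {ι : Type} {ε : ℝ} {K : ι → Set V}
    {u : ι → V → V} {U : ι → V → Mat} (hC : ∀ i, Cell p Ω f F ε (K i) (u i) (U i))
    (hd : ∀ i j, i ≠ j → Disjoint (K i) (K j)) : ContinuousOn (glue K u) Ω := by
  intro x₀ hx₀
  apply ContinuousAt.continuousWithinAt
  apply continuousAt_of_locally_uniform_approx_of_continuousAt
  intro W hW
  obtain ⟨δ, hδ, hδW⟩ := Metric.mem_uniformity_dist.1 hW
  -- a compact ball on which `f` is uniformly continuous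
  obtain ⟨r, hr, hrΩ⟩ := nhds_basis_closedBall.mem_iff.1 (hΩ.1.mem_nhds hx₀)
  have huc := (isCompact_closedBall x₀ r).uniformContinuousOn_of_continuous (hf.mono hrΩ)
  obtain ⟨η, hη, hηf⟩ := Metric.uniformContinuousOn_iff.1 huc δ hδ
  have hm : 0 < min η (r / 2) := lt_min hη (by linarith)
  set S : Finset ι := (finite_diam hΩ (fun i => (hC i).comp) (fun i => (hC i).sub)
    (fun i => (hC i).fat) hd hm).toFinset with hS
  refine ⟨closedBall x₀ (r / 2), closedBall_mem_nhds _ (by linarith),
    fun x => ∑ i ∈ S, u i x, (continuous_finsetSum _ fun i _ => (hC i).cont).continuousAt,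
    fun x hx => hδW ?_⟩
  show dist (glue K u x) (∑ i ∈ S, u i x) < δ
  by_cases hi : ∃ i, x ∈ interior (K i)
  · obtain ⟨i, hi⟩ := hi
    rw [glue_in hd hi]
    have hoff : ∀ j, j ≠ i → u j x = 0 := fun j hj =>
      ((hC j).off x fun hxj => hj (uniq hd (interior_subset hxj) (interior_subset hi))).1
    by_cases hiS : i ∈ S
    · rw [Finset.sum_eq_single i (fun j _ hj => hoff j hj) (fun h => absurd hiS h), dist_self]
      exact hδ
    · rw [Finset.sum_eq_zero fun j hj => hoff j (by rintro rfl; exact hiS hj), dist_zero_right]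
      rw [hS, Finite.mem_toFinset, mem_ofPred_eq, not_le] at hiS
      -- the image is `f y` for a point `y` of the cell
      obtain ⟨h', hinv, -, -⟩ := (hC i).diffeo
      obtain ⟨y, hy, hfy⟩ := (hinv.1 x hi).1
      have hxy : dist y x < min η (r / 2) :=
        (dist_le_diam_of_mem (hC i).comp.isBounded (interior_subset hy)
          (interior_subset hi)).trans_lt hiS
      have hxr : x ∈ closedBall x₀ r := closedBall_subset_closedBall (by linarith) hx
      have hyr : y ∈ closedBall x₀ r := by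
        rw [mem_closedBall] at hx ⊢
        linarith [dist_triangle y x x₀, min_le_right η (r / 2)]
      have h1 := hηf y hyr x hxr (hxy.trans_le (min_le_left _ _))
      have h2 : u i x = f y - f x := by
        have : f y = f x + u i x := hfy
        rw [this]; abel
      rw [h2, ← dist_eq_norm]
      exact h1
  · push Not at hi
    rw [glue_off hi, Finset.sum_eq_zero fun j _ => ((hC j).off x (hi j)).1, dist_self]
    exact hδ

/-- **(RED-A1)** -/
theorem specGlueH : SpecGlueH := by
  intro p Ω Λ f F _ hΩ _ hf ι _ ε K u U hC hd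
  obtain ⟨h, ⟨hf1, hf2⟩, hfc, -⟩ := hf
  have hinjf : InjOn f Ω := fun x hx y hy hxy => by
    rw [← (hf1 x hx).2, ← (hf1 y hy).2, hxy]
  set f1 : V → V := fun x => f x + glue K u x with hf1d
  have hintΩ : ∀ i, interior (K i) ⊆ Ω := fun i => interior_subset.trans (hC i).sub
  have hin : ∀ i, ∀ x ∈ interior (K i), f1 x = f x + u i x := fun i x hx => by
    rw [hf1d]; simp only; rw [glue_in hd hx]
  have hoff : ∀ x, (∀ i, x ∉ interior (K i)) → f1 x = f x := fun x hx => by
    rw [hf1d]; simp only; rw [glue_off hx, add_zero]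
  have himg : ∀ i, ∀ x ∈ interior (K i), f1 x ∈ f '' interior (K i) := fun i x hx => by
    obtain ⟨h', hinv, -, -⟩ := (hC i).diffeo
    rw [hin i x hx]
    exact (hinv.1 x hx).1
  -- a point whose image is in the image of a cell is in the cell
  have hback : ∀ i, ∀ x ∈ Ω, f1 x ∈ f '' interior (K i) → x ∈ interior (K i) := by
    intro i x hx hxi
    obtain ⟨y, hy, hyx⟩ := hxi
    by_cases hj : ∃ j, x ∈ interior (K j)
    · obtain ⟨j, hj⟩ := hj
      obtain ⟨z, hz, hzx⟩ := himg j x hj
      have : y = z := hinjf (hintΩ i hy) (hintΩ j hz) (hyx.trans hzx.symm)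
      subst this
      have hij := uniq hd (interior_subset hy) (interior_subset hz)
      subst hij
      exact hj
    · push Not at hj
      rw [hoff x hj] at hyx
      rw [← hinjf (hintΩ i hy) hx hyx]
      exact hy
  have hinj : InjOn f1 Ω := by
    intro x hx y hy hxy
    by_cases hi : ∃ i, x ∈ interior (K i)
    · obtain ⟨i, hi⟩ := hi
      have hyi : y ∈ interior (K i) := hback i y hy (hxy ▸ himg i x hi)
      obtain ⟨h', hinv, -, -⟩ := (hC i).diffeo
      rw [hin i x hi, hin i y hyi] at hxy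
      have h1 := (hinv.1 x hi).2
      have h2 := (hinv.1 y hyi).2
      simp only at h1 h2
      rw [← h1, ← h2, hxy]
    · push Not at hi
      have hyi : ∀ i, y ∉ interior (K i) := fun i hyi =>
        hi i (hback i x hx (hxy ▸ himg i y hyi))
      rw [hoff x hi, hoff y hyi] at hxy
      exact hinjf hx hy hxy
  have hmaps : ∀ x ∈ Ω, f1 x ∈ Λ := by
    intro x hx
    by_cases hi : ∃ i, x ∈ interior (K i)
    · obtain ⟨i, hi⟩ := hi
      obtain ⟨y, hy, hyx⟩ := himg i x hi
      rw [← hyx]
      exact (hf1 y (hintΩ i hy)).1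
    · push Not at hi
      rw [hoff x hi]
      exact (hf1 x hx).1
  have hsurj : ∀ y ∈ Λ, ∃ x ∈ Ω, f1 x = y := by
    intro y hy
    obtain ⟨hx, hxy⟩ := hf2 y hy
    by_cases hi : ∃ i, h y ∈ interior (K i)
    · obtain ⟨i, hi⟩ := hi
      obtain ⟨h', hinv, -, -⟩ := (hC i).diffeo
      obtain ⟨h1, h2⟩ := hinv.2 y ⟨h y, hi, hxy⟩
      refine ⟨h' y, hintΩ i h1, ?_⟩
      rw [hin i _ h1]
      exact h2
    · push Not at hi
      exact ⟨h y, hx, by rw [hoff _ hi, hxy]⟩
  have hcont : ContinuousOn f1 Ω := hfc.add (continuousOn_glue hΩ hfc hC hd)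
  choose! g hg using hsurj
  refine ⟨g, ⟨fun x hx => ⟨hmaps x hx, ?_⟩, fun y hy => hg y hy⟩, hcont, ?_⟩
  · have h1 := hg (f1 x) (hmaps x hx)
    exact hinj h1.1 hx h1.2
  · -- invariance of domain
    rw [_root_.continuousOn_iff']
    intro t ht
    refine ⟨f1 '' (t ∩ Ω), Vale.Agent.P073.Sep.isOpen_image_of_injOn (ht.inter hΩ.1)
      (hcont.mono inter_subset_right) (hinj.mono inter_subset_right), ?_⟩
    ext y
    constructor
    · rintro ⟨h1, h2⟩
      exact ⟨⟨g y, ⟨h1, (hg y h2).1⟩, (hg y h2).2⟩, h2⟩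
    · rintro ⟨⟨x, ⟨h1, h2⟩, rfl⟩, h3⟩
      refine ⟨?_, h3⟩
      have h4 := hg (f1 x) h3
      rw [mem_preimage, hinj h4.1 h2 h4.2]
      exact h1

end Vale.Agent.P073.RED
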