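import Vale.Agent.P073.AB.FinalA
import Vale.Agent.P073.SQ.Prep

/-!
# P073, block RED: reduction of the full theorem to finite distortion (M1) and to the local
theorem on one cube, with aligned kernel (LOC)
-/

namespace Vale.Agent.P073.RED

open MeasureTheory Set Filter Topology Metric Vale.Agent.P073.St
open Vale.Agent.P073.SQ (ev)
open Vale.Agent.P073.AB (cl err FinDist)
open scoped ContDiff ENNReal

/-- the open unit cube -/
def Q0 : Set V := {x | ∀ i, 0 < x i ∧ x i < 1}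

/-! ## The local theorem -/

/-- **(LOC)** for the linear map `L` -/
def Loc (p : ℝ) (L : V →L[ℝ] V) : Prop :=
  ∀ ε > 0, ∃ κ > 0, ∀ (Λ : Set V) (f : V → V) (F : V → Mat), IsBoundedDomain Λ →
    IsHomeo Q0 Λ f → ContinuousOn f (closure Q0) → IsSobolev p Q0 f F →
    ∑ j, ∫⁻ x in Q0, ENNReal.ofReal (‖cl (F x) (ev j) - L (ev j)‖ ^ p) ≤ ENNReal.ofReal κ →
    ∃ g : V → V, IsDiffeo Q0 Λ g ∧
      ∑ j, ∫⁻ x in Q0, ENNReal.ofReal (‖fderiv ℝ g x (ev j) - cl (F x) (ev j)‖ ^ p) ≤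
        ENNReal.ofReal ε ∧
      ∀ x ∈ frontier Q0, Tendsto (fun y => g y - f y) (𝓝[Q0] x) (𝓝 0)

/-- **(LOC1)** rank one -/
def SpecLoc1 : Prop :=
  ∀ (p : ℝ) (L : V →L[ℝ] V), 1 ≤ p → p < 2 → L (ev 1) = 0 → L (ev 2) = 0 → L (ev 0) ≠ 0 → Loc p L

/-- **(LOC2)** rank two -/
def SpecLoc2 : Prop :=
  ∀ (p : ℝ) (L : V →L[ℝ] V), 1 ≤ p → p < 2 → L (ev 2) = 0 →
    (∀ s t : ℝ, s • L (ev 0) + t • L (ev 1) = 0 → s = 0 ∧ t = 0) → Loc p L

/-- **(M1)** the theorem for finite distortion -/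
def SpecM1 : Prop :=
  ∀ (p : ℝ) (Ω Λ : Set V) (f : V → V) (F : V → Mat), 1 ≤ p → p < 2 → IsBoundedDomain Ω →
    IsBoundedDomain Λ → IsHomeo Ω Λ f → IsSobolev p Ω f F → FinDist Ω F →
    ∀ ε > 0, ∃ g : V → V, IsDiffeo Ω Λ g ∧ err p Ω f F g ≤ ENNReal.ofReal ε

/-! ## Cells -/

/-- rank one or two -/
def LowRank (A : Mat) : Prop := ¬ (∀ i j, A i j = 0) ∧ ¬ NonSing A

/-- A compact set `K` in which `f` is replaced by the diffeomorphism `f + u` of the interior of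
`K`. -/
structure Cell (p : ℝ) (Ω : Set V) (f : V → V) (F : V → Mat) (ε : ℝ) (K : Set V) (u : V → V)
    (U : V → Mat) : Prop where
  comp : IsCompact K
  sub : K ⊆ Ω
  cont : Continuous u
  near : ∀ x, ‖u x‖ ≤ ε
  off : ∀ x, x ∉ interior K → u x = 0 ∧ U x = 0
  sob : IsSobolev p univ u U
  diffeo : IsDiffeo (interior K) (f '' interior K) (fun x => f x + u x)
  der : ∀ x ∈ interior K, cl (F x + U x) = fderiv ℝ (fun x => f x + u x) x
  small : ∑ j, ∫⁻ x in K, ENNReal.ofReal (‖cl (U x) (ev j)‖ ^ p) ≤ ENNReal.ofReal ε * volume K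
  null : volume (frontier K) = 0
  fat : ENNReal.ofReal (diam K ^ 3) ≤ 100 * volume K

open Classical in
/-- the glued perturbation -/
noncomputable def glue {ι E : Type} [Zero E] (K : ι → Set V) (u : ι → V → E) (x : V) : E :=
  if h : ∃ i, x ∈ interior (K i) then u h.choose x else 0

/-- (RED-A1) the glued map is a homeomorphism -/
def SpecGlueH : Prop :=
  ∀ (p : ℝ) (Ω Λ : Set V) (f : V → V) (F : V → Mat), 1 ≤ p → IsBoundedDomain Ω →
    IsBoundedDomain Λ → IsHomeo Ω Λ f → ∀ (ι : Type) (_ : Countable ι) (ε : ℝ) (K : ι → Set V)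
    (u : ι → V → V) (U : ι → V → Mat), (∀ i, Cell p Ω f F ε (K i) (u i) (U i)) →
    (∀ i j, i ≠ j → Disjoint (K i) (K j)) → IsHomeo Ω Λ (fun x => f x + glue K u x)

/-- (RED-A2) the glued map is a Sobolev map -/
def SpecGlueS : Prop :=
  ∀ (p : ℝ) (Ω Λ : Set V) (f : V → V) (F : V → Mat), 1 ≤ p → IsBoundedDomain Ω →
    IsBoundedDomain Λ → IsHomeo Ω Λ f → IsSobolev p Ω f F →
    ∀ (ι : Type) (_ : Countable ι) (ε : ℝ) (K : ι → Set V)
    (u : ι → V → V) (U : ι → V → Mat), (∀ i, Cell p Ω f F ε (K i) (u i) (U i)) →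
    (∀ i j, i ≠ j → Disjoint (K i) (K j)) →
    IsSobolev p Ω (fun x => f x + glue K u x) (fun x => F x + glue K U x)

/-- (RED-B) Vitali: almost all of the low rank set is covered by good cells, from `SpecFine` -/
def SpecVit : Prop :=
  ∀ (p : ℝ) (Ω : Set V) (f : V → V) (F : V → Mat) (ε : ℝ), IsBoundedDomain Ω →
    (∀ᵐ x ∂(volume : Measure V), x ∈ Ω → LowRank (F x) → ∃ r₀ > 0, ∀ r, 0 < r → r < r₀ →
      ∃ (K : Set V) (u : V → V) (U : V → Mat), Cell p Ω f F ε K u U ∧ K ⊆ closedBall x (4 * r) ∧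
        (interior K).Nonempty ∧ ENNReal.ofReal (r ^ 3) ≤ volume K) →
    ∃ (ι : Type) (K : ι → Set V) (u : ι → V → V) (U : ι → V → Mat), Countable ι ∧
      (∀ i, Cell p Ω f F ε (K i) (u i) (U i)) ∧ (∀ i j, i ≠ j → Disjoint (K i) (K j)) ∧
      volume {x | x ∈ Ω ∧ LowRank (F x) ∧ ∀ i, x ∉ interior (K i)} = 0

/-! ## Fine cells -/

/-- (RED-C1) affine change of variables of a Sobolev map: `φ y = x₀ + B y` -/
def SpecAff : Prop :=
  ∀ (p : ℝ) (Ω : Set V) (f : V → V) (F : V → Mat) (B : V ≃L[ℝ] V) (x₀ : V) (t : ℝ), 1 ≤ p →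
    IsOpen Ω → IsSobolev p Ω f F →
    IsSobolev p ((fun y => x₀ + B y) ⁻¹' Ω) (fun y => t • f (x₀ + B y))
      (fun y i j => t * ∑ k, F (x₀ + B y) i k * B (ev j) k)

/-- (RED-C2) extension by zero of a Sobolev map of the cube which vanishes on the boundary -/
def SpecZero : Prop :=
  ∀ (p : ℝ) (u : V → V) (U : V → Mat), 1 ≤ p → IsSobolev p Q0 u U → ContinuousOn u Q0 →
    (∀ x ∈ frontier Q0, Tendsto u (𝓝[Q0] x) (𝓝 0)) →
    Continuous (Q0.indicator u) ∧ IsSobolev p univ (Q0.indicator u) (Q0.indicator U)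

/-- (RED-C3) `L^p` Lebesgue points, for the affine cubes `x + r B Q0` -/
def SpecLeb : Prop :=
  ∀ (p : ℝ) (Ω : Set V) (f : V → V) (F : V → Mat), 1 ≤ p → IsBoundedDomain Ω →
    IsSobolev p Ω f F → ∀ᵐ x ∂(volume : Measure V), x ∈ Ω → ∀ B : V ≃L[ℝ] V,
      Tendsto (fun r : ℝ => ∑ j, ∫⁻ y in Q0,
        ENNReal.ofReal (‖cl (F (x + r • B y)) (B (ev j)) - cl (F x) (B (ev j))‖ ^ p))
        (𝓝[>] 0) (𝓝 0)

/-- (RED-C4) linear algebra: adapted bases -/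
def SpecBasis : Prop :=
  ∀ A : Mat, LowRank A → ∃ B : V ≃L[ℝ] V, (∀ y, ‖B y‖ ≤ 3 * ‖y‖) ∧
    |LinearMap.det (B : V →ₗ[ℝ] V)| = 1 ∧
    ((cl A (B (ev 1)) = 0 ∧ cl A (B (ev 2)) = 0 ∧ cl A (B (ev 0)) ≠ 0) ∨
      (cl A (B (ev 2)) = 0 ∧ ∀ s t : ℝ, s • cl A (B (ev 0)) + t • cl A (B (ev 1)) = 0 →
        s = 0 ∧ t = 0))

/-- (RED-C) fine good cells -/
def SpecFine : Prop :=
  ∀ (p : ℝ) (Ω Λ : Set V) (f : V → V) (F : V → Mat), 1 ≤ p → p < 2 → IsBoundedDomain Ω →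
    IsBoundedDomain Λ → IsHomeo Ω Λ f → IsSobolev p Ω f F → ∀ ε > 0,
    ∀ᵐ x ∂(volume : Measure V), x ∈ Ω → LowRank (F x) → ∃ r₀ > 0, ∀ r, 0 < r → r < r₀ →
      ∃ (K : Set V) (u : V → V) (U : V → Mat), Cell p Ω f F ε K u U ∧ K ⊆ closedBall x (4 * r) ∧
        (interior K).Nonempty ∧ ENNReal.ofReal (r ^ 3) ≤ volume K

/-- (RED-C5) -/
def SpecFineOf : Prop :=
  SpecLoc1 → SpecLoc2 → SpecAff → SpecZero → SpecLeb → SpecBasis → SpecFine

/-- (RED-D) the final approximation statement -/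
def SpecAllErr : Prop :=
  ∀ (p : ℝ) (Ω Λ : Set V) (f : V → V) (F : V → Mat), 1 ≤ p → p < 2 → IsBoundedDomain Ω →
    IsBoundedDomain Λ → IsHomeo Ω Λ f → IsSobolev p Ω f F →
    ∀ ε > 0, ∃ g : V → V, IsDiffeo Ω Λ g ∧ err p Ω f F g ≤ ENNReal.ofReal ε

/-- (RED) -/
def SpecRED : Prop := SpecM1 → SpecFine → SpecVit → SpecGlueH → SpecGlueS → SpecAllErr

end Vale.Agent.P073.RED
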