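import Vale.Agent.P073.RED.Spec
import Vale.Agent.P073.PK.Sob560a

/-!
# P073, block RED: affine change of variables of a Sobolev map (`specAff : SpecAff`)
-/

namespace Vale.Agent.P073.RED.Aff907

open MeasureTheory Set Filter Topology Metric Vale.Agent.P073.St
open Vale.Agent.P073.SQ (ev)
open Vale.Agent.P073.PK (pd_eq_fderiv)
open scoped ContDiff ENNReal

/-- the affine homeomorphism `y ↦ x₀ + B y` -/
noncomputable def aff (B : V ≃L[ℝ] V) (x₀ : V) : V ≃ₜ V :=
  B.toHomeomorph.trans (Homeomorph.addLeft x₀)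

theorem aff_apply (B : V ≃L[ℝ] V) (x₀ y : V) : aff B x₀ y = x₀ + B y := rfl

theorem aff_symm_apply (B : V ≃L[ℝ] V) (x₀ x : V) : (aff B x₀).symm x = B.symm (-x₀ + x) := rfl

/-- the Jacobian factor -/
noncomputable def jc (B : V ≃L[ℝ] V) : ℝ≥0∞ :=
  ENNReal.ofReal |(LinearMap.det (B : V →ₗ[ℝ] V))⁻¹|

theorem det_ne_zero (B : V ≃L[ℝ] V) : LinearMap.det (B : V →ₗ[ℝ] V) ≠ 0 := by
  have := (B.toLinearEquiv.isUnit_det' : IsUnit (LinearMap.det (B.toLinearEquiv : V →ₗ[ℝ] V)))
  exact this.ne_zero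

theorem jc_ne_top (B : V ≃L[ℝ] V) : jc B ≠ ⊤ := ENNReal.ofReal_ne_top

theorem jc_ne_zero (B : V ≃L[ℝ] V) : jc B ≠ 0 := by
  have := det_ne_zero B
  simp only [jc, ne_eq, ENNReal.ofReal_eq_zero, not_le]
  positivity

theorem map_aff (B : V ≃L[ℝ] V) (x₀ : V) :
    (volume : Measure V).map (aff B x₀) = jc B • (volume : Measure V) := by
  have h1 : (⇑(aff B x₀) : V → V) = (fun x => x₀ + x) ∘ (fun y => B y) := rfl
  rw [h1, ← Measure.map_map (measurable_const_add x₀) B.continuous.measurable]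
  have h2 : (volume : Measure V).map (fun y => B y) = jc B • (volume : Measure V) :=
    Measure.map_linearMap_addHaar_eq_smul_addHaar (volume : Measure V) (det_ne_zero B)
  rw [h2, Measure.map_smul, map_add_left_eq_self]

theorem map_restrict (B : V ≃L[ℝ] V) (x₀ : V) (Ω : Set V) (hΩ : IsOpen Ω) :
    ((volume : Measure V).restrict (aff B x₀ ⁻¹' Ω)).map (aff B x₀) =
      jc B • (volume : Measure V).restrict Ω := by
  rw [← Measure.restrict_map (aff B x₀).continuous.measurable hΩ.measurableSet, map_aff,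
    Measure.restrict_smul]

theorem int_comp (B : V ≃L[ℝ] V) (x₀ : V) (Ω : Set V) (hΩ : IsOpen Ω) (u : V → ℝ) :
    int (aff B x₀ ⁻¹' Ω) (fun y => u (aff B x₀ y)) = (jc B).toReal * int Ω u := by
  have h := (aff B x₀).measurableEmbedding.integral_map
    (μ := (volume : Measure V).restrict (aff B x₀ ⁻¹' Ω)) u
  rw [map_restrict B x₀ Ω hΩ, integral_smul_measure] at h
  simp only [int]
  rw [← h, smul_eq_mul]

theorem inLp_comp (B : V ≃L[ℝ] V) (x₀ : V) (Ω : Set V) (hΩ : IsOpen Ω) {p : ℝ} {u : V → ℝ}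
    (h : InLp p Ω u) : InLp p (aff B x₀ ⁻¹' Ω) (fun y => u (aff B x₀ y)) := by
  have h1 := (aff B x₀).measurableEmbedding.memLp_map_measure_iff (p := ENNReal.ofReal p)
    (μ := (volume : Measure V).restrict (aff B x₀ ⁻¹' Ω)) (g := u)
  rw [map_restrict B x₀ Ω hΩ] at h1
  exact h1.1 (h.smul_measure (jc_ne_top B))

theorem inLp_sum {p : ℝ} {Ω : Set V} {u : Fin 3 → V → ℝ} (h : ∀ k, InLp p Ω (u k)) :
    InLp p Ω (fun x => ∑ k, u k x) := memLp_finsetSum _ fun k _ => h k

theorem inLp_mul {p : ℝ} {Ω : Set V} {u : V → ℝ} (h : InLp p Ω u) (c : ℝ) :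
    InLp p Ω (fun x => u x * c) := by
  have h1 : MemLp (fun x => c * u x) (ENNReal.ofReal p) (volume.restrict Ω) := h.const_mul c
  have h2 : (fun x => u x * c) = fun x => c * u x := by
    funext x
    ring
  rw [h2]
  exact h1

theorem inLp_cmul {p : ℝ} {Ω : Set V} {u : V → ℝ} (h : InLp p Ω u) (c : ℝ) :
    InLp p Ω (fun x => c * u x) := h.const_mul c

/-- a continuous function with compact support times an `L^p` function is integrable -/
theorem integrable_mul {p : ℝ} (hp : 1 ≤ p) {Ω : Set V} {u : V → ℝ} (h : InLp p Ω u) {φ : V → ℝ}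
    (hφ : Continuous φ) (hc : HasCompactSupport φ) :
    Integrable (fun x => φ x * u x) (volume.restrict Ω) := by
  have hK : IsCompact (tsupport φ) := hc
  have h1 : IntegrableOn u (tsupport φ) (volume.restrict Ω) := by
    have h2 : MemLp u (ENNReal.ofReal p) ((volume.restrict Ω).restrict (tsupport φ)) :=
      h.restrict _
    have h3 : IsFiniteMeasure ((volume.restrict Ω).restrict (tsupport φ)) := by
      constructor
      rw [Measure.restrict_apply MeasurableSet.univ, univ_inter]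
      exact lt_of_le_of_lt (Measure.restrict_apply_le _ _) hK.measure_lt_top
    exact h2.integrable (by simpa using ENNReal.ofReal_le_ofReal hp)
  obtain ⟨C, hC⟩ := hc.exists_bound_of_continuous hφ
  have h2 : IntegrableOn (fun x => φ x * u x) (tsupport φ) (volume.restrict Ω) :=
    Integrable.bdd_mul h1 hφ.aestronglyMeasurable (Eventually.of_forall hC)
  refine (integrableOn_iff_integrable_of_support_subset ?_).1 h2
  intro x hx
  apply subset_tsupport φ
  intro h0
  apply hx
  simp [h0]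

theorem int_sum {Ω : Set V} {u : Fin 3 → V → ℝ} (h : ∀ k, Integrable (u k) (volume.restrict Ω)) :
    int Ω (fun x => ∑ k, u k x) = ∑ k, int Ω (u k) := integral_finsetSum _ fun k _ => h k

theorem int_cmul (Ω : Set V) (u : V → ℝ) (c : ℝ) : int Ω (fun x => c * u x) = c * int Ω u :=
  integral_const_mul c _

/-- transport of test functions -/
theorem isTest_comp (B : V ≃L[ℝ] V) (x₀ : V) {Ω : Set V} {ψ : V → ℝ}
    (h : IsTest (aff B x₀ ⁻¹' Ω) ψ) : IsTest Ω (fun x => ψ ((aff B x₀).symm x)) := by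
  obtain ⟨h1, h2, h3⟩ := h
  refine ⟨?_, ?_, ?_⟩
  · have h4 : ContDiff ℝ ∞ ψ := contDiffOn_univ.1 h1
    have h5 : ContDiff ℝ ∞ (fun x => (aff B x₀).symm x) := by
      simp only [aff_symm_apply]
      exact B.symm.contDiff.comp (contDiff_const.add contDiff_id)
    exact contDiffOn_univ.2 (h4.comp h5)
  · exact h2.comp_homeomorph (aff B x₀).symm
  · have h4 : tsupport (fun x => ψ ((aff B x₀).symm x)) = (aff B x₀).symm ⁻¹' tsupport ψ :=
      tsupport_comp_eq_preimage ψ (aff B x₀).symm
    rw [h4]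
    intro x hx
    have h5 := h3 hx
    simpa using h5

theorem sum_ev (v : V) : v = ∑ k, v k • ev k := by
  funext i
  simp [ev, Finset.sum_apply, Pi.single_apply]

theorem fderiv_sum_pd {φ : V → ℝ} (hφ : ContDiff ℝ ∞ φ) (x v : V) :
    fderiv ℝ φ x v = ∑ k, v k * pd φ x k := by
  conv_lhs => rw [sum_ev v, map_sum]
  refine Finset.sum_congr rfl fun k _ => ?_
  rw [map_smul, smul_eq_mul, pd_eq_fderiv hφ]
  rfl

theorem pd_comp (B : V ≃L[ℝ] V) (x₀ : V) {φ : V → ℝ} (hφ : ContDiff ℝ ∞ φ) (y : V) (j : Fin 3) :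
    pd (fun y => φ (aff B x₀ y)) y j = ∑ k, B (ev j) k * pd φ (aff B x₀ y) k := by
  have h1 : HasFDerivAt (fun y => aff B x₀ y) (B : V →L[ℝ] V) y := by
    simp only [aff_apply]
    exact B.hasFDerivAt.const_add x₀
  have h2 : HasFDerivAt φ (fderiv ℝ φ (aff B x₀ y)) (aff B x₀ y) :=
    (hφ.differentiable (by simp) _).hasFDerivAt
  have h3 : ContDiff ℝ ∞ (fun y => φ (aff B x₀ y)) := by
    simp only [aff_apply]
    exact hφ.comp (contDiff_const.add B.contDiff)
  have h4 : fderiv ℝ (fun y => φ (aff B x₀ y)) y = (fderiv ℝ φ (aff B x₀ y)).comp (B : V →L[ℝ] V) :=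
    (h2.comp y h1).fderiv
  rw [pd_eq_fderiv h3, h4]
  show fderiv ℝ φ (aff B x₀ y) (B (ev j)) = _
  rw [fderiv_sum_pd hφ]

end Vale.Agent.P073.RED.Aff907

namespace Vale.Agent.P073.RED

open MeasureTheory Set Filter Topology Metric Vale.Agent.P073.St
open Vale.Agent.P073.SQ (ev)
open Vale.Agent.P073.PK (pd_eq_fderiv)
open Aff907
open scoped ContDiff ENNReal

/-- **(RED-C1)** affine change of variables of a Sobolev map -/
theorem specAff : SpecAff := by
  intro p Ω f F B x₀ t hp hΩ ⟨hf, hF, hw⟩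
  change IsSobolev p (aff B x₀ ⁻¹' Ω) (fun y => t • f (aff B x₀ y))
    (fun y i j => t * ∑ k, F (aff B x₀ y) i k * B (ev j) k)
  refine ⟨fun i => ?_, fun i j => ?_, ?_⟩
  · exact inLp_cmul (inLp_comp B x₀ Ω hΩ (hf i)) t
  · exact inLp_cmul (inLp_sum fun k => inLp_mul (inLp_comp B x₀ Ω hΩ (hF i k)) _) t
  · intro ψ hψ i j
    set φ : V → ℝ := fun x => ψ ((aff B x₀).symm x) with hφdef
    have hφ : IsTest Ω φ := isTest_comp B x₀ hψ
    have hφs : ContDiff ℝ ∞ φ := contDiffOn_univ.1 hφ.1
    have hψe : ψ = fun y => φ (aff B x₀ y) := by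
      funext y
      simp [hφdef]
    have e1 : int (aff B x₀ ⁻¹' Ω) (fun y => ψ y * (t * ∑ k, F (aff B x₀ y) i k * B (ev j) k)) =
        (jc B).toReal * int Ω (fun x => φ x * (t * ∑ k, F x i k * B (ev j) k)) := by
      rw [← int_comp B x₀ Ω hΩ, hψe]
    have e2 : int (aff B x₀ ⁻¹' Ω) (fun y => pd ψ y j * (t • f (aff B x₀ y)) i) =
        (jc B).toReal * int Ω (fun x => (∑ k, B (ev j) k * pd φ x k) * (t * f x i)) := by
      rw [← int_comp B x₀ Ω hΩ]
      congr 1
      funext y
      rw [hψe, pd_comp B x₀ hφs]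
      rfl
    have i1 : ∀ k, Integrable (fun x => φ x * F x i k) (volume.restrict Ω) := fun k =>
      integrable_mul hp (hF i k) hφs.continuous hφ.2.1
    have hpc : ∀ k, Continuous (fun x => pd φ x k) := fun k => by
      have : (fun x => pd φ x k) = fun x => fderiv ℝ φ x (Pi.single k 1) := by
        funext x
        exact pd_eq_fderiv hφs x k
      rw [this]
      exact (hφs.continuous_fderiv (by simp)).clm_apply continuous_const
    have hpc2 : ∀ k, HasCompactSupport (fun x => pd φ x k) := fun k => by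
      have : (fun x => pd φ x k) = fun x => fderiv ℝ φ x (Pi.single k 1) := by
        funext x
        exact pd_eq_fderiv hφs x k
      rw [this]
      exact hφ.2.1.fderiv_apply ℝ _
    have i2 : ∀ k, Integrable (fun x => pd φ x k * f x i) (volume.restrict Ω) := fun k =>
      integrable_mul hp (hf i) (hpc k) (hpc2 k)
    have e3 : int Ω (fun x => φ x * (t * ∑ k, F x i k * B (ev j) k)) =
        ∑ k, (t * B (ev j) k) * int Ω (fun x => φ x * F x i k) := by
      have : (fun x => φ x * (t * ∑ k, F x i k * B (ev j) k)) =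
          fun x => ∑ k, (t * B (ev j) k) * (φ x * F x i k) := by
        funext x
        rw [Finset.mul_sum, Finset.mul_sum]
        exact Finset.sum_congr rfl fun k _ => by ring
      rw [this, int_sum fun k => (i1 k).const_mul _]
      exact Finset.sum_congr rfl fun k _ => int_cmul _ _ _
    have e4 : int Ω (fun x => (∑ k, B (ev j) k * pd φ x k) * (t * f x i)) =
        ∑ k, (t * B (ev j) k) * int Ω (fun x => pd φ x k * f x i) := by
      have : (fun x => (∑ k, B (ev j) k * pd φ x k) * (t * f x i)) =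
          fun x => ∑ k, (t * B (ev j) k) * (pd φ x k * f x i) := by
        funext x
        rw [Finset.sum_mul]
        exact Finset.sum_congr rfl fun k _ => by ring
      rw [this, int_sum fun k => (i2 k).const_mul _]
      exact Finset.sum_congr rfl fun k _ => int_cmul _ _ _
    rw [e1, e2, e3, e4, ← mul_neg, ← Finset.sum_neg_distrib]
    congr 1
    refine Finset.sum_congr rfl fun k _ => ?_
    rw [hw φ hφ i k, mul_neg]

end Vale.Agent.P073.RED
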