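import Vale.Agent.P073.RED.Spec
import Mathlib.Analysis.InnerProductSpace.NormDet

/-!
# P073, block RED (helper894): adapted bases (`SpecBasis`)
-/

namespace Vale.Agent.P073.RED

open MeasureTheory Set Filter Topology Metric Vale.Agent.P073.St
open Vale.Agent.P073.SQ (ev)
open Vale.Agent.P073.AB (cl)

/-- Euclidean three-space -/
abbrev E3 : Type := EuclideanSpace ℝ (Fin 3)

/-- the identification with the space with the sup norm -/
noncomputable abbrev eq3 : E3 ≃L[ℝ] V := EuclideanSpace.equiv (Fin 3) ℝ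

/-- the linear map attached to an orthonormal basis -/
noncomputable def onB (b : OrthonormalBasis (Fin 3) ℝ E3) : V ≃L[ℝ] V :=
  eq3.symm.trans (b.repr.symm.toContinuousLinearEquiv.trans eq3)

theorem onB_apply (b : OrthonormalBasis (Fin 3) ℝ E3) (y : V) :
    onB b y = eq3 (b.repr.symm (eq3.symm y)) := rfl

theorem onB_ev (b : OrthonormalBasis (Fin 3) ℝ E3) (j : Fin 3) : onB b (ev j) = eq3 (b j) := by
  rw [onB_apply]
  congr 1
  exact b.repr_symm_single j

theorem abs_apply_le (x : E3) (i : Fin 3) : |x i| ≤ ‖x‖ := by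
  have := PiLp.norm_apply_le x i
  rwa [Real.norm_eq_abs] at this

theorem norm_symm_le (y : V) : ‖eq3.symm y‖ ≤ 3 * ‖y‖ := by
  rw [EuclideanSpace.norm_eq]
  apply Real.sqrt_le_iff.2
  refine ⟨by positivity, ?_⟩
  have h : ∀ i : Fin 3, ‖(eq3.symm y) i‖ ^ 2 ≤ ‖y‖ ^ 2 := fun i => by
    have h1 : ‖(eq3.symm y) i‖ ≤ ‖y‖ := norm_le_pi_norm y i
    exact pow_le_pow_left₀ (norm_nonneg _) h1 2
  calc ∑ i, ‖(eq3.symm y) i‖ ^ 2 ≤ ∑ _i : Fin 3, ‖y‖ ^ 2 := Finset.sum_le_sum fun i _ => h i
    _ = 3 * ‖y‖ ^ 2 := by simp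
    _ ≤ (3 * ‖y‖) ^ 2 := by nlinarith [sq_nonneg ‖y‖]

theorem norm_onB_le (b : OrthonormalBasis (Fin 3) ℝ E3) (y : V) : ‖onB b y‖ ≤ 3 * ‖y‖ := by
  rw [pi_norm_le_iff_of_nonneg (by positivity)]
  intro i
  rw [Real.norm_eq_abs]
  calc |(onB b y) i| ≤ ‖b.repr.symm (eq3.symm y)‖ := abs_apply_le _ i
    _ = ‖eq3.symm y‖ := LinearIsometryEquiv.norm_map _ _
    _ ≤ 3 * ‖y‖ := norm_symm_le y

theorem det_onB (b : OrthonormalBasis (Fin 3) ℝ E3) :
    |LinearMap.det (onB b : V →ₗ[ℝ] V)| = 1 := by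
  have h : ((onB b : V ≃L[ℝ] V) : V →ₗ[ℝ] V) =
      (eq3.toLinearEquiv : E3 →ₗ[ℝ] V) ∘ₗ (b.repr.symm.toLinearIsometry.toLinearMap) ∘ₗ
        (eq3.toLinearEquiv.symm : V →ₗ[ℝ] E3) := by
    ext y i
    rfl
  rw [h, LinearMap.det_conj, ← LinearMap.normDet_eq_abs_det, LinearIsometry.normDet_eq_one]

/-- the matrix as a map of Euclidean space -/
theorem clA_apply (A : Mat) (v : V) : cl A v = ap A v := by
  funext i
  show (Matrix.toLin' (Matrix.of A)) v i = _
  rw [Matrix.toLin'_apply]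
  rfl

/-- **(RED-C4)** -/
theorem specBasis : SpecBasis := by
  rintro A ⟨h0, hns⟩
  let T : E3 →ₗ[ℝ] V := (cl A : V →ₗ[ℝ] V) ∘ₗ (eq3.toLinearEquiv : E3 →ₗ[ℝ] V)
  have hT : ∀ x, T x = cl A (eq3 x) := fun x => rfl
  let K : Submodule ℝ E3 := LinearMap.ker T
  have hK : ∀ x, x ∈ K ↔ cl A (eq3 x) = 0 := fun x => LinearMap.mem_ker
  have hbot : K ≠ ⊥ := by
    intro h
    apply hns
    intro v hv
    have h1 : eq3.symm v ∈ K := by
      rw [hK, ContinuousLinearEquiv.apply_symm_apply, clA_apply]; exact hv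
    rw [h, Submodule.mem_bot] at h1
    have := congrArg eq3 h1
    rwa [ContinuousLinearEquiv.apply_symm_apply, map_zero] at this
  have htop : K ≠ ⊤ := by
    intro h
    apply h0
    intro i j
    have h1 : eq3.symm (ev j) ∈ K := by rw [h]; trivial
    rw [hK, ContinuousLinearEquiv.apply_symm_apply, clA_apply] at h1
    have h2 := congrFun h1 i
    simp only [ap, ev, Pi.single_apply, mul_ite, mul_one, mul_zero, Finset.sum_ite_eq',
      Finset.mem_univ, if_true, Pi.zero_apply] at h2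
    exact h2
  have hfr : Module.finrank ℝ E3 = Fintype.card (Fin 3) := by simp
  by_cases h2 : 2 ≤ Module.finrank ℝ K
  · -- two orthonormal vectors in the kernel
    let u := stdOrthonormalBasis ℝ K
    have hu := u.orthonormal
    let i0 : Fin (Module.finrank ℝ K) := ⟨0, by omega⟩
    let i1 : Fin (Module.finrank ℝ K) := ⟨1, by omega⟩
    have hne : i0 ≠ i1 := fun h => by
      have := congrArg Fin.val h
      simp [i0, i1] at this
    let v : Fin 3 → E3 := ![0, (u i0 : E3), (u i1 : E3)]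
    have hv1 : v 1 = (u i0 : E3) := rfl
    have hv2 : v 2 = (u i1 : E3) := rfl
    have hn0 : ‖(u i0 : E3)‖ = 1 := hu.1 i0
    have hn1 : ‖(u i1 : E3)‖ = 1 := hu.1 i1
    have hin : inner ℝ (u i0 : E3) (u i1 : E3) = 0 := hu.2 hne
    have hin' : inner ℝ (u i1 : E3) (u i0 : E3) = 0 := hu.2 hne.symm
    have hv : Orthonormal ℝ (({1, 2} : Set (Fin 3)).domRestrict v) := by
      constructor
      · rintro ⟨i, hi | hi⟩
        · subst hi; exact hn0
        · have hi' : i = 2 := hi
          subst hi'; exact hn1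
      · rintro ⟨i, hi | hi⟩ ⟨j, hj | hj⟩ hij
        · subst hi; subst hj; exact absurd rfl hij
        · have hj' : j = 2 := hj
          subst hi; subst hj'; exact hin
        · have hi' : i = 2 := hi
          subst hi'; subst hj; exact hin'
        · have hi' : i = 2 := hi
          have hj' : j = 2 := hj
          subst hi'; subst hj'; exact absurd rfl hij
    obtain ⟨b, hb⟩ := hv.exists_orthonormalBasis_extension_of_card_eq hfr
    have hb1 : b 1 ∈ K := by rw [hb 1 (by simp), hv1]; exact (u i0).2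
    have hb2 : b 2 ∈ K := by rw [hb 2 (by simp), hv2]; exact (u i1).2
    refine ⟨onB b, norm_onB_le b, det_onB b, Or.inl ⟨?_, ?_, ?_⟩⟩
    · rw [onB_ev]; exact (hK _).1 hb1
    · rw [onB_ev]; exact (hK _).1 hb2
    · rw [onB_ev]
      intro h
      have hb0 : b 0 ∈ K := (hK _).2 h
      apply htop
      rw [eq_top_iff, ← b.toBasis.span_eq, Submodule.span_le]
      rintro _ ⟨i, rfl⟩
      rw [OrthonormalBasis.coe_toBasis]
      fin_cases i
      · exact hb0
      · exact hb1
      · exact hb2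
  · -- the kernel is a line
    have h1 : Module.finrank ℝ K = 1 := by
      have h3 : Module.finrank ℝ K ≠ 0 := fun h => hbot (Submodule.finrank_eq_zero.1 h)
      omega
    obtain ⟨w, hwK, hw0⟩ := Submodule.exists_mem_ne_zero_of_ne_bot hbot
    have hwn : ‖w‖ ≠ 0 := norm_ne_zero_iff.2 hw0
    let k : E3 := ‖w‖⁻¹ • w
    have hkK : k ∈ K := K.smul_mem _ hwK
    have hkn : ‖k‖ = 1 := by
      show ‖‖w‖⁻¹ • w‖ = 1
      rw [norm_smul, norm_inv, norm_norm, inv_mul_cancel₀ hwn]
    have hk0 : k ≠ 0 := fun h => by rw [h, norm_zero] at hkn; exact zero_ne_one hkn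
    have hv : Orthonormal ℝ (({2} : Set (Fin 3)).domRestrict fun _ => k) := by
      constructor
      · rintro ⟨i, hi⟩; exact hkn
      · rintro ⟨i, hi⟩ ⟨j, hj⟩ hij
        have hi' : i = 2 := hi
        have hj' : j = 2 := hj
        subst hi'; subst hj'; exact absurd rfl hij
    obtain ⟨b, hb⟩ := hv.exists_orthonormalBasis_extension_of_card_eq hfr
    have hb2 : b 2 = k := hb 2 (by simp)
    refine ⟨onB b, norm_onB_le b, det_onB b, Or.inr ⟨?_, fun s t hst => ?_⟩⟩
    · rw [onB_ev, hb2]; exact (hK _).1 hkK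
    · rw [onB_ev, onB_ev] at hst
      have hx : s • b 0 + t • b 1 ∈ K := by
        rw [hK, map_add, map_smul, map_smul, map_add, map_smul, map_smul]
        exact hst
      obtain ⟨c, hc⟩ := exists_smul_eq_of_finrank_eq_one h1 (x := (⟨k, hkK⟩ : K))
        (fun h => hk0 (congrArg Subtype.val h)) ⟨_, hx⟩
      have hc' : c • b 2 = s • b 0 + t • b 1 := by
        rw [hb2]; exact congrArg Subtype.val hc
      have e : ∀ i, inner ℝ (b i) (c • b 2) = inner ℝ (b i) (s • b 0 + t • b 1) := fun i => by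
        rw [hc']
      have o := b.orthonormal
      have e0 := e 0
      have e1 := e 1
      rw [inner_add_right, inner_smul_right, inner_smul_right, inner_smul_right] at e0 e1
      rw [o.2 (show (0:Fin 3) ≠ 2 by decide), o.2 (show (0:Fin 3) ≠ 1 by decide),
        real_inner_self_eq_norm_sq, o.1 0] at e0
      rw [o.2 (show (1:Fin 3) ≠ 2 by decide), o.2 (show (1:Fin 3) ≠ 0 by decide),
        real_inner_self_eq_norm_sq, o.1 1] at e1
      constructor
      · linarith
      · linarith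

end Vale.Agent.P073.RED
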