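import Vale.Agent.P073.RED.Fine3

/-!
# RED: `SpecFineOf`
-/

namespace Vale.Agent.P073.RED

open MeasureTheory Set Filter Topology Metric Vale.Agent.P073.St
open Vale.Agent.P073.SQ (ev)
open Vale.Agent.P073.AB (cl)
open scoped ContDiff ENNReal

theorem box_sub_ball {x : V} {B₀ : V ≃L[ℝ] V} (hB : ∀ y, ‖B₀ y‖ ≤ 3 * ‖y‖) {r : ℝ} (hr : 0 < r) :
    box x (sc r hr.ne' B₀) ⊆ closedBall x (3 * r) := by
  rintro z ⟨y, hy, rfl⟩
  rw [mem_closedBall, dist_eq_norm, aff_apply, add_sub_cancel_left, sc_apply, norm_smul,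
    Real.norm_of_nonneg hr.le]
  have h1 := hB y
  have h2 := norm_le_of_mem hy
  nlinarith

theorem diam_box_le {x : V} {B₀ : V ≃L[ℝ] V} (hB : ∀ y, ‖B₀ y‖ ≤ 3 * ‖y‖) {r : ℝ} (hr : 0 < r) :
    diam (box x (sc r hr.ne' B₀)) ≤ 3 * r := by
  refine diam_le_of_forall_dist_le (by positivity) ?_
  rintro _ ⟨y, hy, rfl⟩ _ ⟨y', hy', rfl⟩
  rw [dist_eq_norm, aff_apply, aff_apply, add_sub_add_left_eq_sub, ← map_sub, sc_apply, norm_smul,
    Real.norm_of_nonneg hr.le]
  have h1 := hB (y - y')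
  have h2 : ‖y - y'‖ ≤ 1 := by
    rw [pi_norm_le_iff_of_nonneg zero_le_one]
    intro i
    have a := mem_clQ0.1 hy i
    have b := mem_clQ0.1 hy' i
    rw [Pi.sub_apply, Real.norm_eq_abs, abs_le]
    constructor <;> linarith [a.1, a.2, b.1, b.2]
  nlinarith [norm_nonneg (y - y')]

theorem specFineOf : SpecFineOf := by
  intro hL1 hL2 hAff hZero hLeb hBasis p Ω Λ f F hp hp2 hΩ hΛ hf hF ε hε
  filter_upwards [hLeb p Ω f F hp hΩ hF] with x hx hxΩ hlow
  obtain ⟨B₀, hB₀, hdet, hrank⟩ := hBasis (F x) hlow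
  set L : V →L[ℝ] V := (cl (F x)).comp (B₀ : V →L[ℝ] V) with hL
  have hLoc : Loc p L := by
    rcases hrank with ⟨h1, h2, h0⟩ | ⟨h2, h⟩
    · exact hL1 p L hp hp2 h1 h2 h0
    · exact hL2 p L hp hp2 h2 h
  obtain ⟨M, hM0, hM⟩ : ∃ M : ℝ, 0 ≤ M ∧ ∀ j k, |B₀.symm (ev j) k| ≤ M := by
    refine ⟨∑ j, ∑ k, |B₀.symm (ev j) k|, by positivity, fun j k => ?_⟩
    calc |B₀.symm (ev j) k| ≤ ∑ k, |B₀.symm (ev j) k| :=
          Finset.single_le_sum (f := fun k => |B₀.symm (ev j) k|) (fun _ _ => abs_nonneg _)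
            (Finset.mem_univ k)
      _ ≤ _ := Finset.single_le_sum (f := fun j => ∑ k, |B₀.symm (ev j) k|)
            (fun _ _ => Finset.sum_nonneg fun _ _ => abs_nonneg _) (Finset.mem_univ j)
  set A : ℝ := 3 * (M ^ p * 3 ^ p) with hA
  have hA0 : 0 ≤ A := by positivity
  obtain ⟨κ, hκ, hloc⟩ := hLoc (ε / (A + 1)) (by positivity)
  have e1 := (hx hxΩ B₀).eventually_lt_const (u := ENNReal.ofReal κ) (by simpa using hκ)
  obtain ⟨r₁, hr₁, h1⟩ := mem_nhdsGT_iff_exists_Ioo_subset.1 e1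
  have hfc : ContinuousOn f Ω := by
    obtain ⟨_, -, hc, -⟩ := hf; exact hc
  have hfx : ContinuousAt f x := hfc.continuousAt (hΩ.1.mem_nhds hxΩ)
  obtain ⟨δ, hδ, h2⟩ : ∃ δ > 0, ∀ z, dist z x < δ → z ∈ Ω ∧ dist (f z) (f x) < ε / 2 := by
    have h3 : ∀ᶠ z in 𝓝 x, z ∈ Ω ∧ dist (f z) (f x) < ε / 2 :=
      (hΩ.1.eventually_mem hxΩ).and (hfx.eventually (ball_mem_nhds _ (by positivity)))
    obtain ⟨δ, hδ, h4⟩ := Metric.eventually_nhds_iff.1 h3
    exact ⟨δ, hδ, fun z hz => h4 hz⟩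
  refine ⟨min r₁ (δ / 4), lt_min hr₁ (by positivity), fun r hr hr' => ?_⟩
  have hr1 : r < r₁ := hr'.trans_le (min_le_left _ _)
  have hr2 : 4 * r < δ := by
    have := hr'.trans_le (min_le_right _ _); linarith
  set B := sc r hr.ne' B₀ with hB
  have hbb : box x B ⊆ closedBall x (3 * r) := box_sub_ball hB₀ hr
  have hb : ∀ z ∈ box x B, z ∈ Ω ∧ dist (f z) (f x) < ε / 2 := fun z hz =>
    h2 z ((mem_closedBall.1 (hbb hz)).trans_lt (by linarith))
  have hbΩ : box x B ⊆ Ω := fun z hz => (hb z hz).1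
  have hS := sobolev_resc (t := r) hAff hp hΩ.1 hF hbΩ
  have hI := isBoundedDomain_rescI hr hΛ hf hbΩ
  have hκ' : ∑ j, ∫⁻ y in Q0, ENNReal.ofReal (‖cl (rescD F x B r y) (ev j) - L (ev j)‖ ^ p) ≤
      ENNReal.ofReal κ := by
    have h3 := h1 ⟨hr, hr1⟩
    rw [mem_ofPred_eq] at h3
    refine le_trans (le_of_eq ?_) h3.le
    refine Finset.sum_congr rfl fun j _ => ?_
    refine lintegral_congr fun y => ?_
    rw [cl_rescD, hB, sc_apply, sc_apply, map_smul, inv_smul_smul₀ hr.ne']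
    rfl
  obtain ⟨g, hg, hgE, hgb⟩ := hloc (rescI f x B r) (resc f x B r) (rescD F x B r) hI
    (isHomeo_resc hr hf hbΩ) (continuousOn_resc hfc hbΩ) hS hκ'
  have hgc := SQ.isDiffeo_cd hg
  have hP := sobolev_pert hAff hp hp2 hΩ.1 hF hbΩ hI hg (ne_top_of_le_ne_top
    ENNReal.ofReal_ne_top hgE)
  have hrc : ContinuousOn (resc f x B r) Q0 :=
    (continuousOn_resc hfc hbΩ).mono subset_closure
  obtain ⟨hz1, hz2⟩ := hZero p _ _ hp hP (hgc.continuousOn.sub hrc) hgb
  have hvol : volume (box x B) = ENNReal.ofReal (r ^ 3) := by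
    rw [volume_box, hB, det_sc, abs_mul, hdet, mul_one, abs_of_pos (by positivity)]
  refine ⟨box x B, bu f x B r g, bU F x B r g, ?_, ?_, ?_, ?_⟩
  · refine ⟨isCompact_box x B, hbΩ, ?_, ?_, ?_, ?_, ?_, ?_, ?_, frontier_box x B, ?_⟩
    · exact (hz1.comp (continuous_const.add B.symm.continuous)).const_smul r
    · intro z
      by_cases hz : z ∈ interior (box x B)
      · have h3 := (diffeo_bu hr hg)
        obtain ⟨_, ⟨h4, -⟩, -, -⟩ := h3
        obtain ⟨z', hz', h5⟩ := (h4 z hz).1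
        simp only at h5
        have h6 : bu f x B r g z = f z' - f z := by rw [h5]; abel
        have h7 := (hb z (interior_subset hz)).2
        have h8 := (hb z' (interior_subset hz')).2
        rw [h6, ← dist_eq_norm]
        have h9 := dist_triangle_right (f z') (f z) (f x)
        linarith
      · rw [bu_off hz, norm_zero]; exact hε.le
    · exact fun z hz => ⟨bu_off hz, bU_off hz⟩
    · have h3 := hAff p univ _ _ B.symm (B.symm (-x)) r hp isOpen_univ hz2
      rw [preimage_univ] at h3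
      exact h3
    · exact diffeo_bu hr hg
    · exact fun z hz => der_bu hr hgc hz
    · refine (small_bU hp hS hgc hM0 (fun j k => ?_) hgE).trans ?_
      · rw [hB, sc_symm_apply, Pi.smul_apply, smul_eq_mul, mul_inv_cancel_left₀ hr.ne']
        exact hM j k
      · rw [volume_box, mul_comm]
        gcongr
        have h3 : (3 : ℝ≥0∞) = ENNReal.ofReal 3 := by simp
        rw [h3, ← ENNReal.ofReal_mul (by positivity), ← ENNReal.ofReal_mul (by positivity)]
        refine ENNReal.ofReal_le_ofReal ?_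
        rw [← mul_assoc, ← hA, mul_div_assoc', div_le_iff₀ (by positivity)]
        nlinarith
    · rw [hvol]
      have h3 := diam_box_le hB₀ hr (x := x)
      have h4 : (100 : ℝ≥0∞) = ENNReal.ofReal 100 := by simp
      rw [h4, ← ENNReal.ofReal_mul (by norm_num)]
      refine ENNReal.ofReal_le_ofReal ?_
      calc diam (box x B) ^ 3 ≤ (3 * r) ^ 3 := pow_le_pow_left₀ diam_nonneg h3 3
        _ = 27 * r ^ 3 := by ring
        _ ≤ 100 * r ^ 3 := by
          have : 0 < r ^ 3 := by positivity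
          linarith
  · exact hbb.trans (closedBall_subset_closedBall (by linarith))
  · rw [interior_box]; exact Q0_nonempty.image _
  · exact hvol.ge

end Vale.Agent.P073.RED
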