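import Vale.Agent.P073.RED.Spec
import Vale.Agent.P073.HB.Haj3

/-!
# P073, block RED, (RED-C3): `L^p` Lebesgue points, for affine cubes
-/

namespace Vale.Agent.P073.RED

open MeasureTheory Set Filter Topology Metric Vale.Agent.P073.St
open Vale.Agent.P073.SQ (ev)
open Vale.Agent.P073.AB (cl err FinDist)
open scoped ContDiff ENNReal

/-- a.e. point is a Lebesgue point, for all small radii -/
theorem ae_lebesgue {E X : Type*} [NormedAddCommGroup E] [NormedSpace ℝ E]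
    [FiniteDimensional ℝ E] [MeasurableSpace E] [BorelSpace E] {μ : Measure E}
    [μ.IsAddHaarMeasure] [NormedAddCommGroup X] [SecondCountableTopology X] [MeasurableSpace X]
    [BorelSpace X] {G : E → X} {Ω : Set E} (hΩ : IsOpen Ω) (hμΩ : μ Ω ≠ ⊤)
    (hG : AEMeasurable G (μ.restrict Ω)) {p : ℝ} (hp : 1 ≤ p)
    (hGp : ∫⁻ z in Ω, ‖G z‖ₑ ^ p ∂μ ≠ ⊤) :
    ∀ᵐ x ∂μ, x ∈ Ω → ∀ η : ℝ≥0∞, η ≠ 0 → ∃ δ > 0, ball x δ ⊆ Ω ∧ ∀ r, 0 < r → r ≤ δ →
      ∫⁻ z in ball x r, ‖G z - G x‖ₑ ^ p ∂μ ≤ η * μ (ball x r) := by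
  have h := fun n : ℕ => HB.exists_uniform_lebesgue (μ := μ) hΩ hμΩ hG hp hGp
    hΩ.measurableSet Subset.rfl (ε := ((n : ℝ≥0∞) + 1)⁻¹) (by
      refine ENNReal.inv_ne_zero.2 ?_
      finiteness)
  choose T hTΩ hTc hTμ _ hT using h
  have hN : μ (Ω \ ⋃ n, T n) = 0 := by
    refine le_antisymm (ENNReal.le_of_forall_pos_le_add fun ε hε _ => ?_) zero_le
    obtain ⟨n, hn⟩ := ENNReal.exists_inv_nat_lt (a := (ε : ℝ≥0∞)) (by
      exact_mod_cast hε.ne')
    rw [zero_add]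
    refine (measure_mono (sdiff_subset_sdiff_right (subset_iUnion T n))).trans
      ((hTμ n).le.trans (le_trans ?_ hn.le))
    exact ENNReal.inv_le_inv.2 le_self_add
  filter_upwards [measure_eq_zero_iff_ae_notMem.1 hN] with x hx hxΩ η hη
  have hx' : x ∈ ⋃ n, T n := by
    by_contra h1
    exact hx ⟨hxΩ, h1⟩
  obtain ⟨n, hn⟩ := mem_iUnion.1 hx'
  obtain ⟨δ, hδ, h1, h2⟩ := hT n η hη
  exact ⟨δ, hδ, h1 x hn, h2 x hn⟩

/-- affine change of variables -/
theorem lintegral_affine (B : V ≃L[ℝ] V) (x : V) {r : ℝ} (hr : 0 < r) (k : V → ℝ≥0∞) :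
    ∫⁻ y, k (x + r • B y) =
      ENNReal.ofReal |(LinearMap.det (r • (B : V →ₗ[ℝ] V)))⁻¹| * ∫⁻ z, k z := by
  have hdet : LinearMap.det (r • (B : V →ₗ[ℝ] V)) ≠ 0 := by
    rw [LinearMap.det_smul]
    refine mul_ne_zero (pow_ne_zero _ hr.ne') ?_
    exact (LinearEquiv.isUnit_det' B.toLinearEquiv).ne_zero
  have hmap := Measure.map_linearMap_addHaar_eq_smul_addHaar (volume : Measure V) hdet
  let e : V ≃ₜ V := B.toHomeomorph.trans (Homeomorph.smulOfNeZero r hr.ne')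
  have he : ⇑(r • (B : V →ₗ[ℝ] V)) = ⇑e.toMeasurableEquiv := by
    funext y
    rfl
  rw [he] at hmap
  have h1 := lintegral_map_equiv (μ := (volume : Measure V)) (fun z => k (x + z))
    e.toMeasurableEquiv
  rw [hmap, lintegral_smul_measure, lintegral_add_left_eq_self] at h1
  exact h1.symm

theorem volume_ball_scale (x : V) {r : ℝ} (hr : 0 < r) (R : ℝ) (hR : 0 < R) :
    volume (ball x (R * r)) = ENNReal.ofReal (r ^ 3) * volume (ball (0 : V) R) := by
  rw [Measure.addHaar_ball_of_pos _ _ (mul_pos hR hr), Measure.addHaar_ball_of_pos _ _ hR,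
    ← mul_assoc, ← ENNReal.ofReal_mul (by positivity)]
  congr 2
  simp only [Module.finrank_fintype_fun_eq_card, Fintype.card_fin]
  ring

/-- **(RED-C3)** -/
theorem specLeb : SpecLeb := by
  intro p Ω f F hp hΩ hF
  have hp0 : 0 < p := by linarith
  have h0 := ae_lebesgue (μ := (volume : Measure V)) (G := fun x => cl (F x)) hΩ.1
    (PK.volume_ne_top_of_domain hΩ) (PK.IsSob.aesm hF).aemeasurable hp
    (PK.IsSob.lintegral_ne_top hp hF)
  filter_upwards [h0] with x hx hxΩ B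
  set R : ℝ := ‖(B : V →L[ℝ] V)‖ + 1 with hR
  have hR0 : 0 < R := by positivity
  -- the basic bound
  have key : ∀ j, ∀ r, 0 < r → ∫⁻ y in Q0,
      ENNReal.ofReal (‖cl (F (x + r • B y)) (B (ev j)) - cl (F x) (B (ev j))‖ ^ p) ≤
        ‖B (ev j)‖ₑ ^ p * (ENNReal.ofReal |(LinearMap.det (r • (B : V →ₗ[ℝ] V)))⁻¹| *
          ∫⁻ z in ball x (R * r), ‖cl (F z) - cl (F x)‖ₑ ^ p) := by
    intro j r hr
    rw [← lintegral_indicator measurableSet_ball, ← lintegral_affine B x hr]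
    have hfin : ‖B (ev j)‖ₑ ^ p ≠ ⊤ := ENNReal.rpow_ne_top_of_nonneg hp0.le enorm_ne_top
    rw [← lintegral_const_mul' _ _ hfin]
    refine le_trans ?_ (setLIntegral_le_lintegral Q0 _)
    have hQm : MeasurableSet Q0 := by
      have : Q0 = ⋂ i : Fin 3, {y : V | 0 < y i ∧ y i < 1} := by
        ext y
        simp [Q0]
      rw [this]
      refine MeasurableSet.iInter fun i => ?_
      exact ((isOpen_lt continuous_const (continuous_apply i)).inter
        (isOpen_lt (continuous_apply i) continuous_const)).measurableSet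
    refine setLIntegral_mono' hQm fun y hy => ?_
    have hyn : ‖y‖ ≤ 1 := by
      rw [pi_norm_le_iff_of_nonneg zero_le_one]
      intro i
      rw [Real.norm_eq_abs, abs_le]
      exact ⟨by linarith [(hy i).1], (hy i).2.le⟩
    have hmem : x + r • B y ∈ ball x (R * r) := by
      rw [mem_ball_iff_norm, add_sub_cancel_left, norm_smul, Real.norm_of_nonneg hr.le]
      have h1 : ‖B y‖ ≤ ‖(B : V →L[ℝ] V)‖ * ‖y‖ := (B : V →L[ℝ] V).le_opNorm y
      have h2 : ‖B y‖ < R := by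
        calc ‖B y‖ ≤ ‖(B : V →L[ℝ] V)‖ * ‖y‖ := h1
          _ ≤ ‖(B : V →L[ℝ] V)‖ * 1 := by gcongr
          _ < R := by rw [hR]; linarith
      rw [mul_comm]
      gcongr
    rw [indicator_of_mem hmem, AB.ofReal_norm_rpow hp0.le,
      ← ENNReal.mul_rpow_of_nonneg _ _ hp0.le]
    refine ENNReal.rpow_le_rpow ?_ hp0.le
    rw [mul_comm, ← sub_apply]
    exact ContinuousLinearMap.le_opENorm _ _
  -- the constant
  set D : ℝ := LinearMap.det (B : V →ₗ[ℝ] V) with hD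
  have hD0 : D ≠ 0 := (LinearEquiv.isUnit_det' B.toLinearEquiv).ne_zero
  set C : ℝ≥0∞ := ∑ j, ‖B (ev j)‖ₑ ^ p * (ENNReal.ofReal |D⁻¹| * volume (ball (0 : V) R)) with hC
  have hCt : C ≠ ⊤ := by
    rw [hC]
    refine ENNReal.sum_ne_top.2 fun j _ => ?_
    exact ENNReal.mul_ne_top (ENNReal.rpow_ne_top_of_nonneg hp0.le enorm_ne_top)
      (ENNReal.mul_ne_top ENNReal.ofReal_ne_top measure_ball_lt_top.ne)
  rw [ENNReal.tendsto_nhds_zero]
  intro ε hε
  obtain ⟨η, hη0, hη⟩ : ∃ η : ℝ≥0∞, η ≠ 0 ∧ η * C ≤ ε := by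
    by_cases hεt : ε = ⊤
    · exact ⟨1, one_ne_zero, hεt ▸ le_top⟩
    · refine ⟨ε / (C + 1), ?_, ?_⟩
      · exact (ENNReal.div_pos hε.ne' (by finiteness)).ne'
      · rw [ENNReal.div_eq_inv_mul, mul_right_comm]
        calc (C + 1)⁻¹ * C * ε ≤ 1 * ε := by
              gcongr
              rw [← ENNReal.div_eq_inv_mul]
              exact ENNReal.div_le_of_le_mul (by rw [one_mul]; exact le_self_add)
          _ = ε := one_mul _
  obtain ⟨δ, hδ, _, hδ2⟩ := hx hxΩ η hη0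
  have hev : ∀ᶠ r in 𝓝[>] (0 : ℝ), r < δ / R :=
    mem_nhdsWithin_of_mem_nhds (gt_mem_nhds (div_pos hδ hR0))
  filter_upwards [hev, self_mem_nhdsWithin] with r hr1 hr
  have hr0 : 0 < r := hr
  have hRr : R * r ≤ δ := by
    rw [lt_div_iff₀ hR0] at hr1
    rw [mul_comm]
    exact hr1.le
  refine le_trans ?_ hη
  rw [hC, Finset.mul_sum]
  refine Finset.sum_le_sum fun j _ => (key j r hr0).trans ?_
  have h3 := hδ2 (R * r) (by positivity) hRr
  rw [volume_ball_scale x hr0 R hR0] at h3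
  have h4 : ENNReal.ofReal |(LinearMap.det (r • (B : V →ₗ[ℝ] V)))⁻¹| * ENNReal.ofReal (r ^ 3) =
      ENNReal.ofReal |D⁻¹| := by
    rw [← ENNReal.ofReal_mul (abs_nonneg _), LinearMap.det_smul]
    congr 1
    simp only [Module.finrank_fintype_fun_eq_card, Fintype.card_fin]
    rw [mul_inv, abs_mul, abs_of_pos (inv_pos.2 (pow_pos hr0 3)), ← hD]
    have : r ^ 3 ≠ 0 := by positivity
    field_simp
  calc ‖B (ev j)‖ₑ ^ p * (ENNReal.ofReal |(LinearMap.det (r • (B : V →ₗ[ℝ] V)))⁻¹| *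
        ∫⁻ z in ball x (R * r), ‖cl (F z) - cl (F x)‖ₑ ^ p)
      ≤ ‖B (ev j)‖ₑ ^ p * (ENNReal.ofReal |(LinearMap.det (r • (B : V →ₗ[ℝ] V)))⁻¹| *
        (η * (ENNReal.ofReal (r ^ 3) * volume (ball (0 : V) R)))) := by gcongr
    _ = η * (‖B (ev j)‖ₑ ^ p * ((ENNReal.ofReal |(LinearMap.det (r • (B : V →ₗ[ℝ] V)))⁻¹| *
        ENNReal.ofReal (r ^ 3)) * volume (ball (0 : V) R))) := by ring
    _ = _ := by rw [h4]

end Vale.Agent.P073.RED
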