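import Vale.Agent.P073.RED.Spec
import Vale.Agent.P073.AB.Final
import Vale.Agent.P073.SQ.Final

/-!
# RED: the first milestone (finite distortion) in error form
-/

namespace Vale.Agent.P073.RED

open Vale.Agent.P073.AB

/-- **(M1)** from `SpecFD` -/
theorem specM1 (hFD : SpecFD) : SpecM1 := by
  intro p Ω Λ f F hp hp2 hΩ hΛ hf hF hfd ε hε
  exact exists_small_err SQ.specSQ hp hp2 hΩ hΛ hf
    (fun η hη => hFD p Ω Λ f F hp hp2 hΩ hΛ hf hF hfd η hη) hε

end Vale.Agent.P073.RED
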