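import Vale.Agent.P073.RED.Spec
import Vale.Agent.P073.PK.Sob560a

/-!
# RED: extension by zero of a Sobolev map of the open unit cube
-/

namespace Vale.Agent.P073.RED

open MeasureTheory Set Filter Topology Metric Vale.Agent.P073.St
open scoped ContDiff ENNReal

theorem isOpen_Q0 : IsOpen Q0 := by
  have : Q0 = ⋂ i, {x : V | 0 < x i ∧ x i < 1} := by ext x; simp [Q0]
  rw [this]
  exact isOpen_iInter_of_finite fun i =>
    (isOpen_lt continuous_const (continuous_apply i)).inter
      (isOpen_lt (continuous_apply i) continuous_const)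

theorem Q0_subset_Icc : Q0 ⊆ Icc (0 : V) 1 := fun _ hx =>
  ⟨fun i => (hx i).1.le, fun i => (hx i).2.le⟩

theorem volume_Q0_ne_top : volume Q0 ≠ ⊤ :=
  ne_top_of_le_ne_top isCompact_Icc.measure_lt_top.ne (measure_mono Q0_subset_Icc)

/-! ## cutoff functions -/

/-- one-dimensional cutoff function -/
noncomputable def st (n : ℕ) (t : ℝ) : ℝ :=
  Real.smoothTransition (n * t - 1) * Real.smoothTransition (n * (1 - t) - 1)

theorem st_contDiff (n : ℕ) : ContDiff ℝ ∞ (st n) := by
  unfold st
  exact (Real.smoothTransition.contDiff.comp (by fun_prop)).mul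
    (Real.smoothTransition.contDiff.comp (by fun_prop))

theorem st_nonneg (n : ℕ) (t : ℝ) : 0 ≤ st n t :=
  mul_nonneg (Real.smoothTransition.nonneg _) (Real.smoothTransition.nonneg _)

theorem st_le_one (n : ℕ) (t : ℝ) : st n t ≤ 1 :=
  mul_le_one₀ (Real.smoothTransition.le_one _) (Real.smoothTransition.nonneg _)
    (Real.smoothTransition.le_one _)

theorem st_zero {n : ℕ} {t : ℝ} (h : n * t ≤ 1 ∨ n * (1 - t) ≤ 1) : st n t = 0 := by
  unfold st
  rcases h with h | h
  · rw [Real.smoothTransition.zero_of_nonpos (by linarith), zero_mul]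
  · rw [Real.smoothTransition.zero_of_nonpos (x := n * (1 - t) - 1) (by linarith), mul_zero]

theorem st_one {n : ℕ} {t : ℝ} (h1 : 2 ≤ n * t) (h2 : 2 ≤ n * (1 - t)) : st n t = 1 := by
  unfold st
  rw [Real.smoothTransition.one_of_one_le (by linarith),
    Real.smoothTransition.one_of_one_le (by linarith), one_mul]

theorem deriv_st_zero {n : ℕ} {t : ℝ} (h1 : 2 < n * t) (h2 : 2 < n * (1 - t)) :
    deriv (st n) t = 0 := by
  have h3 : st n =ᶠ[𝓝 t] fun _ => 1 := by
    have e1 : ∀ᶠ s : ℝ in 𝓝 t, 2 < (n:ℝ) * s :=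
      (isOpen_lt continuous_const (by fun_prop : Continuous fun s : ℝ => (n:ℝ) * s)).mem_nhds h1
    have e2 : ∀ᶠ s : ℝ in 𝓝 t, 2 < (n:ℝ) * (1 - s) :=
      (isOpen_lt continuous_const
        (by fun_prop : Continuous fun s : ℝ => (n:ℝ) * (1 - s))).mem_nhds h2
    filter_upwards [e1, e2] with s a b
    exact st_one a.le b.le
  rw [h3.deriv_eq, deriv_const]

theorem exists_deriv_bound : ∃ M : ℝ, 0 ≤ M ∧ ∀ (n : ℕ) (t : ℝ), |deriv (st n) t| ≤ n * M := by
  have hT : ContDiff ℝ 1 Real.smoothTransition := Real.smoothTransition.contDiff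
  have hc : Continuous (deriv Real.smoothTransition) := hT.continuous_deriv le_rfl
  obtain ⟨B, hB⟩ := isCompact_Icc.exists_bound_of_continuousOn (s := Icc (0:ℝ) 1) hc.continuousOn
  have hB' : ∀ t, |deriv Real.smoothTransition t| ≤ max B 0 := by
    intro t
    by_cases ht : t ∈ Icc (0:ℝ) 1
    · exact (hB t ht).trans (le_max_left _ _)
    · have : deriv Real.smoothTransition t = 0 := by
        rw [mem_Icc, not_and_or, not_le, not_le] at ht
        rcases ht with ht | ht
        · have : Real.smoothTransition =ᶠ[𝓝 t] fun _ => 0 := by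
            filter_upwards [gt_mem_nhds ht] with s hs
            exact Real.smoothTransition.zero_of_nonpos (le_of_lt hs)
          rw [this.deriv_eq, deriv_const]
        · have : Real.smoothTransition =ᶠ[𝓝 t] fun _ => 1 := by
            filter_upwards [lt_mem_nhds ht] with s hs
            exact Real.smoothTransition.one_of_one_le (le_of_lt hs)
          rw [this.deriv_eq, deriv_const]
      rw [this, abs_zero]
      exact le_max_right _ _
  refine ⟨2 * max B 0, by positivity, fun n t => ?_⟩
  have hd : ∀ s, HasDerivAt Real.smoothTransition (deriv Real.smoothTransition s) s := fun s =>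
    (hT.differentiable (by simp) s).hasDerivAt
  have h1 : HasDerivAt (fun t : ℝ => (n:ℝ) * t - 1) n t := by
    simpa using ((hasDerivAt_id t).const_mul (n:ℝ)).sub_const 1
  have h2 : HasDerivAt (fun t : ℝ => (n:ℝ) * (1 - t) - 1) (-n) t := by
    simpa using (((hasDerivAt_id t).const_sub 1).const_mul (n:ℝ)).sub_const 1
  have h3 := ((hd _).comp t h1).mul ((hd _).comp t h2)
  have h4 : HasDerivAt (st n) _ t := h3
  rw [h4.deriv]
  have a1 := hB' (n * t - 1)
  have a2 := hB' (n * (1 - t) - 1)
  have b1 := Real.smoothTransition.le_one (n * t - 1)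
  have b2 := Real.smoothTransition.le_one (n * (1 - t) - 1)
  have c1 := Real.smoothTransition.nonneg (n * t - 1)
  have c2 := Real.smoothTransition.nonneg (n * (1 - t) - 1)
  refine (abs_add_le _ _).trans ?_
  simp only [Function.comp, abs_mul, abs_neg, Nat.abs_cast, abs_of_nonneg c1, abs_of_nonneg c2]
  have hM0 : 0 ≤ max B 0 := le_max_right _ _
  have hn0 : (0:ℝ) ≤ n := Nat.cast_nonneg n
  calc |deriv Real.smoothTransition (n * t - 1)| * n * Real.smoothTransition (n * (1 - t) - 1) +
        Real.smoothTransition (n * t - 1) *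
          (|deriv Real.smoothTransition (n * (1 - t) - 1)| * n) ≤
        max B 0 * n * 1 + 1 * (max B 0 * n) := by gcongr
    _ = n * (2 * max B 0) := by ring

/-- the cutoff function of the cube -/
noncomputable def eta (n : ℕ) (x : V) : ℝ := ∏ l, st n (x l)

theorem eta_contDiff (n : ℕ) : ContDiff ℝ ∞ (eta n) := by
  unfold eta
  exact contDiff_prod fun l _ => (st_contDiff n).comp (contDiff_apply ℝ ℝ l)

theorem eta_nonneg (n : ℕ) (x : V) : 0 ≤ eta n x := Finset.prod_nonneg fun _ _ => st_nonneg n _

theorem eta_le_one (n : ℕ) (x : V) : eta n x ≤ 1 :=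
  Finset.prod_le_one (fun _ _ => st_nonneg n _) fun _ _ => st_le_one n _

theorem tsupport_eta {n : ℕ} (hn : 0 < n) : tsupport (eta n) ⊆ Q0 := by
  have hn' : (0:ℝ) < n := Nat.cast_pos.2 hn
  have h1 : tsupport (eta n) ⊆ {x : V | ∀ l, 1 ≤ n * x l ∧ 1 ≤ n * (1 - x l)} := by
    refine closure_minimal (fun x hx l => ?_) ?_
    · by_contra hcon
      rw [not_and_or, not_le, not_le] at hcon
      apply hx
      exact Finset.prod_eq_zero (Finset.mem_univ l) (st_zero (hcon.imp le_of_lt le_of_lt))
    · have : {x : V | ∀ l, 1 ≤ (n:ℝ) * x l ∧ 1 ≤ n * (1 - x l)} =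
          ⋂ l, {x : V | 1 ≤ (n:ℝ) * x l ∧ 1 ≤ n * (1 - x l)} := by ext x; simp
      rw [this]
      exact isClosed_iInter fun l =>
        (isClosed_le continuous_const (by fun_prop : Continuous fun x : V => (n:ℝ) * x l)).inter
        (isClosed_le continuous_const (by fun_prop : Continuous fun x : V => (n:ℝ) * (1 - x l)))
  refine h1.trans fun x hx l => ?_
  obtain ⟨a, b⟩ := hx l
  constructor
  · by_contra hcon
    have := mul_nonpos_of_nonneg_of_nonpos hn'.le (not_lt.1 hcon)
    linarith
  · by_contra hcon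
    have h2 : 1 - x l ≤ 0 := by linarith [not_lt.1 hcon]
    have := mul_nonpos_of_nonneg_of_nonpos hn'.le h2
    linarith

theorem tendsto_eta {x : V} (hx : x ∈ Q0) : Tendsto (fun n => eta n x) atTop (𝓝 1) := by
  have h1 : ∀ l, ∀ᶠ n : ℕ in atTop, st n (x l) = 1 := by
    intro l
    have hN : Tendsto (fun n : ℕ => (n:ℝ) * x l) atTop atTop :=
      tendsto_natCast_atTop_atTop.atTop_mul_const (hx l).1
    have hN' : Tendsto (fun n : ℕ => (n:ℝ) * (1 - x l)) atTop atTop :=
      tendsto_natCast_atTop_atTop.atTop_mul_const (by linarith [(hx l).2])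
    filter_upwards [hN.eventually_ge_atTop 2, hN'.eventually_ge_atTop 2] with n a b
    exact st_one a b
  have h2 : ∀ᶠ n : ℕ in atTop, eta n x = 1 := by
    filter_upwards [eventually_all.2 h1] with n hn
    exact Finset.prod_eq_one fun l _ => hn l
  exact tendsto_const_nhds.congr' (h2.mono fun n hn => hn.symm)

/-- the partial derivative of a product with the cutoff function -/
theorem pd_mul_eta {φ : V → ℝ} (hφ : ContDiff ℝ ∞ φ) (n : ℕ) (x : V) (j : Fin 3) :
    pd (fun x => φ x * eta n x) x j = pd φ x j * eta n x +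
      φ x * (deriv (st n) (x j) * ∏ l ∈ Finset.univ.erase j, st n (x l)) := by
  have h1 : HasDerivAt (fun t => φ (Function.update x j t)) (pd φ x j) (x j) := by
    have h2 : HasDerivAt (fun t : ℝ => Function.update x j t) (Pi.single j 1) (x j) :=
      hasDerivAt_update x j (x j)
    have h3 : HasFDerivAt φ (fderiv ℝ φ (Function.update x j (x j))) (Function.update x j (x j)) :=
      ((hφ.differentiable (by simp)) _).hasFDerivAt
    have h4 := h3.comp_hasDerivAt (x j) h2
    rw [Function.update_eq_self, ← PK.pd_eq_fderiv hφ] at h4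
    exact h4
  have h2 : HasDerivAt (st n) (deriv (st n) (x j)) (x j) :=
    (((st_contDiff n).differentiable (by simp)) _).hasDerivAt
  have h3 := h1.mul (h2.mul_const (∏ l ∈ Finset.univ.erase j, st n (x l)))
  have h4 : (fun t => φ (Function.update x j t)) * (fun t => st n t *
      ∏ l ∈ Finset.univ.erase j, st n (x l)) =
      fun t => φ (Function.update x j t) * eta n (Function.update x j t) := by
    funext t
    simp only [Pi.mul_apply, eta]
    rw [← Finset.mul_prod_erase Finset.univ _ (Finset.mem_univ j), Function.update_self]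
    congr 2
    refine Finset.prod_congr rfl fun l hl => ?_
    rw [Function.update_of_ne (Finset.ne_of_mem_erase hl)]
  rw [h4] at h3
  have h5 : eta n x = st n (x j) * ∏ l ∈ Finset.univ.erase j, st n (x l) :=
    (Finset.mul_prod_erase Finset.univ _ (Finset.mem_univ j)).symm
  rw [pd, h3.deriv, Function.update_eq_self, h5]

/-! ## the extension -/

theorem mem_closure_Q0z {x : V} (hx : x ∈ closure Q0) : ∀ l, 0 ≤ x l ∧ x l ≤ 1 := by
  have h1 : closure Q0 ⊆ Icc (0 : V) 1 := closure_minimal Q0_subset_Icc isClosed_Icc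
  exact fun l => ⟨(h1 hx).1 l, (h1 hx).2 l⟩

theorem continuous_ext {u : V → V} (hu : ContinuousOn u Q0)
    (hb : ∀ x ∈ frontier Q0, Tendsto u (𝓝[Q0] x) (𝓝 0)) : Continuous (Q0.indicator u) := by
  rw [continuous_iff_continuousAt]
  intro x
  by_cases hx : x ∈ Q0
  · have h1 : Q0.indicator u =ᶠ[𝓝 x] u := by
      filter_upwards [isOpen_Q0.mem_nhds hx] with y hy
      exact indicator_of_mem hy u
    exact (hu.continuousAt (isOpen_Q0.mem_nhds hx)).congr h1.symm
  · have h0 : Q0.indicator u x = 0 := indicator_of_notMem hx u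
    by_cases hc : x ∈ closure Q0
    · have hf : x ∈ frontier Q0 := ⟨hc, fun h => hx (interior_subset h)⟩
      rw [ContinuousAt, h0, ← nhdsWithin_univ, ← union_compl_self Q0, nhdsWithin_union]
      refine Tendsto.sup ?_ ?_
      · refine (hb x hf).congr' ?_
        filter_upwards [self_mem_nhdsWithin] with y hy
        exact (indicator_of_mem hy u).symm
      · refine tendsto_const_nhds.congr' ?_
        filter_upwards [self_mem_nhdsWithin] with y hy
        exact (indicator_of_notMem hy u).symm
    · have h1 : Q0.indicator u =ᶠ[𝓝 x] fun _ => 0 := by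
        filter_upwards [isClosed_closure.isOpen_compl.mem_nhds hc] with y hy
        exact indicator_of_notMem (fun h => hy (subset_closure h)) u
      exact continuousAt_const.congr h1.symm

theorem indicator_apply' {E : Type} [Zero E] (f : V → Fin 3 → E) (x : V) (i : Fin 3) :
    Q0.indicator f x i = Q0.indicator (fun x => f x i) x := by
  by_cases hx : x ∈ Q0
  · rw [indicator_of_mem hx, indicator_of_mem hx]
  · rw [indicator_of_notMem hx, indicator_of_notMem hx]; rfl

/-- the extension is small in the layers -/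
theorem layer_small {u : V → V} (hc : Continuous (Q0.indicator u)) {ε : ℝ} (hε : 0 < ε) :
    ∀ᶠ n : ℕ in atTop, ∀ x ∈ Q0, ∀ j, ((n:ℝ) * x j ≤ 2 ∨ n * (1 - x j) ≤ 2) → ‖u x‖ ≤ ε := by
  have hcs : HasCompactSupport (Q0.indicator u) :=
    HasCompactSupport.of_support_subset_isCompact (K := Icc (0:V) 1) isCompact_Icc
      (Set.support_indicator_subset.trans Q0_subset_Icc)
  have huc : UniformContinuous (Q0.indicator u) := hcs.uniformContinuous_of_continuous hc
  rw [Metric.uniformContinuous_iff] at huc
  obtain ⟨δ, hδ, h1⟩ := huc ε hε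
  have h2 : ∀ᶠ n : ℕ in atTop, 2 < n * δ :=
    (tendsto_natCast_atTop_atTop.atTop_mul_const hδ).eventually_gt_atTop 2
  filter_upwards [h2, eventually_gt_atTop 0] with n hn hn0 x hx j hj
  have hn' : (0:ℝ) < n := Nat.cast_pos.2 hn0
  obtain ⟨t, ht, htQ⟩ : ∃ t : ℝ, |x j - t| < δ ∧ ¬ (0 < t ∧ t < 1) := by
    rcases hj with hj | hj
    · refine ⟨0, ?_, fun h => lt_irrefl _ h.1⟩
      rw [sub_zero, abs_of_pos (hx j).1]
      have : (n:ℝ) * x j < n * δ := by linarith
      exact lt_of_mul_lt_mul_left this hn'.le
    · refine ⟨1, ?_, fun h => lt_irrefl _ h.2⟩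
      rw [abs_sub_comm, abs_of_pos (by linarith [(hx j).2])]
      have : (n:ℝ) * (1 - x j) < n * δ := by linarith
      exact lt_of_mul_lt_mul_left this hn'.le
  have h3 : dist x (Function.update x j t) < δ := by
    rw [dist_pi_lt_iff hδ]
    intro l
    by_cases hl : l = j
    · subst hl; rw [Function.update_self, Real.dist_eq]; exact ht
    · rw [Function.update_of_ne hl, dist_self]; exact hδ
  have h4 := h1 h3
  have h5 : Function.update x j t ∉ Q0 := fun h => htQ (by
    have := h j
    rwa [Function.update_self] at this)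
  rw [indicator_of_mem hx, indicator_of_notMem h5, dist_zero_right] at h4
  exact h4.le

/-- the layers -/
def layer (n : ℕ) (j : Fin 3) : Set V := {x ∈ Q0 | (n:ℝ) * x j ≤ 2 ∨ n * (1 - x j) ≤ 2}

theorem volume_layer {n : ℕ} (hn : 0 < n) (j : Fin 3) :
    (volume (layer n j)).toReal ≤ 4 / n := by
  have hn' : (0:ℝ) < n := Nat.cast_pos.2 hn
  have h1 : layer n j ⊆ Icc (0 : V) (Function.update 1 j (2 / n)) ∪
      Icc (Function.update (0 : V) j (1 - 2 / n)) (1 : V) := by
    rintro x ⟨hx, h | h⟩
    · left
      refine ⟨fun l => (hx l).1.le, fun l => ?_⟩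
      by_cases hl : l = j
      · subst hl
        rw [Function.update_self, le_div_iff₀ hn']; linarith
      · rw [Function.update_of_ne hl]; exact (hx l).2.le
    · right
      refine ⟨fun l => ?_, fun l => (hx l).2.le⟩
      by_cases hl : l = j
      · subst hl
        rw [Function.update_self]
        have : 1 - x l ≤ 2 / n := by rw [le_div_iff₀ hn']; linarith
        linarith
      · rw [Function.update_of_ne hl]; exact (hx l).1.le
  have hupd : ∀ (c : V) (s : ℝ), ∏ l, ENNReal.ofReal ((Function.update c j s) l) =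
      ENNReal.ofReal s * ∏ l ∈ Finset.univ.erase j, ENNReal.ofReal (c l) := by
    intro c s
    rw [← Finset.mul_prod_erase Finset.univ _ (Finset.mem_univ j), Function.update_self]
    congr 1
    refine Finset.prod_congr rfl fun l hl => ?_
    rw [Function.update_of_ne (Finset.ne_of_mem_erase hl)]
  have e1 : volume (Icc (0 : V) (Function.update 1 j (2 / n))) = ENNReal.ofReal (2 / n) := by
    rw [Real.volume_Icc_pi]
    simp only [Pi.zero_apply, sub_zero]
    rw [hupd]
    simp
  have e2 : volume (Icc (Function.update (0 : V) j (1 - 2 / n)) (1 : V)) =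
      ENNReal.ofReal (2 / n) := by
    rw [Real.volume_Icc_pi]
    have : ∀ l, (1 : V) l - (Function.update (0 : V) j (1 - 2 / n)) l =
        (Function.update (1 : V) j (2 / n)) l := by
      intro l
      by_cases hl : l = j
      · subst hl; simp
      · simp [Function.update_of_ne hl]
    simp only [this]
    rw [hupd]
    simp
  have h2 : volume (layer n j) ≤ ENNReal.ofReal (4 / n) := by
    refine (measure_mono h1).trans ((measure_union_le _ _).trans ?_)
    rw [e1, e2, ← ENNReal.ofReal_add (by positivity) (by positivity)]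
    apply ENNReal.ofReal_le_ofReal
    rw [← add_div]; norm_num
  calc (volume (layer n j)).toReal ≤ (ENNReal.ofReal (4 / n)).toReal :=
        ENNReal.toReal_mono ENNReal.ofReal_ne_top h2
    _ = 4 / n := ENNReal.toReal_ofReal (by positivity)

/-! ## the weak derivative of the extension -/

section weak

variable {p : ℝ} {u : V → V} {U : V → Mat}

/-- the error term tends to zero -/
theorem tendsto_err (hu : Continuous (Q0.indicator u)) {φ : V → ℝ} {A : ℝ}
    (hA : ∀ x, ‖φ x‖ ≤ A) (i j : Fin 3) :
    Tendsto (fun n : ℕ => ∫ x in Q0,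
      (φ x * (deriv (st n) (x j) * ∏ l ∈ Finset.univ.erase j, st n (x l))) * u x i)
      atTop (𝓝 0) := by
  obtain ⟨M, hM, hMb⟩ := exists_deriv_bound
  have hA0 : 0 ≤ A := (norm_nonneg _).trans (hA 0)
  rw [Metric.tendsto_atTop']
  intro ε hε
  have hε' : 0 < ε / (4 * A * M + 1) := by positivity
  have h1 := (layer_small hu hε').and (eventually_gt_atTop 0)
  obtain ⟨N, hN⟩ := eventually_atTop.1 h1
  refine ⟨N, fun n hn => ?_⟩
  obtain ⟨h2, hn0⟩ := hN n hn.le
  have hn' : (0:ℝ) < n := Nat.cast_pos.2 hn0
  have hzero : ∀ x ∈ Q0 \ layer n j,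
      (φ x * (deriv (st n) (x j) * ∏ l ∈ Finset.univ.erase j, st n (x l))) * u x i = 0 := by
    rintro x ⟨hx, hx'⟩
    have : ¬ ((n:ℝ) * x j ≤ 2 ∨ n * (1 - x j) ≤ 2) := fun h => hx' ⟨hx, h⟩
    rw [not_or, not_le, not_le] at this
    rw [deriv_st_zero this.1 this.2]
    ring
  have hle : layer n j ⊆ Q0 := fun x hx => hx.1
  rw [dist_zero_right, setIntegral_eq_of_subset_of_forall_sdiff_eq_zero
    isOpen_Q0.measurableSet hle hzero]
  have hfin : volume (layer n j) < ⊤ :=
    (measure_mono hle).trans_lt (lt_top_iff_ne_top.2 volume_Q0_ne_top)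
  have hb : ∀ x ∈ layer n j,
      ‖(φ x * (deriv (st n) (x j) * ∏ l ∈ Finset.univ.erase j, st n (x l))) * u x i‖ ≤
        (A * (n * M)) * (ε / (4 * A * M + 1)) := by
    rintro x ⟨hx, hxl⟩
    have e1 : ‖u x i‖ ≤ ε / (4 * A * M + 1) := (norm_le_pi_norm (u x) i).trans (h2 x hx j hxl)
    have e2 : ‖∏ l ∈ Finset.univ.erase j, st n (x l)‖ ≤ 1 := by
      rw [Real.norm_of_nonneg (Finset.prod_nonneg fun _ _ => st_nonneg n _)]
      exact Finset.prod_le_one (fun _ _ => st_nonneg n _) fun _ _ => st_le_one n _
    have e3 : ‖deriv (st n) (x j)‖ ≤ n * M := hMb n (x j)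
    rw [norm_mul, norm_mul, norm_mul]
    calc ‖φ x‖ * (‖deriv (st n) (x j)‖ * ‖∏ l ∈ Finset.univ.erase j, st n (x l)‖) * ‖u x i‖ ≤
          A * ((n * M) * 1) * (ε / (4 * A * M + 1)) := by
            gcongr
            exact hA x
      _ = _ := by ring
  refine (norm_setIntegral_le_of_norm_le_const hfin hb).trans_lt ?_
  calc (A * (n * M)) * (ε / (4 * A * M + 1)) * (volume (layer n j)).toReal ≤
        (A * (n * M)) * (ε / (4 * A * M + 1)) * (4 / n) := by
          gcongr
          exact volume_layer hn0 j
    _ = (4 * A * M) * ε / (4 * A * M + 1) := by field_simp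
    _ < ε := by
        rw [div_lt_iff₀ (by positivity)]
        nlinarith

theorem weak_ext (hp : 1 ≤ p) (hU : IsSobolev p Q0 u U) (hu : Continuous (Q0.indicator u))
    {φ : V → ℝ} (hφ : IsTest univ φ) (i j : Fin 3) :
    ∫ x in Q0, φ x * U x i j = - ∫ x in Q0, pd φ x j * u x i := by
  have hφs : ContDiff ℝ ∞ φ := contDiffOn_univ.1 hφ.1
  have hφc : Continuous φ := hφs.continuous
  obtain ⟨A, hA⟩ := hφ.2.1.exists_bound_of_continuous hφc
  have hA0 : 0 ≤ A := (norm_nonneg _).trans (hA 0)
  have hdc : Continuous fun x => pd φ x j := by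
    simp only [PK.pd_eq_fderiv hφs]
    exact (hφs.continuous_fderiv (by simp)).clm_apply continuous_const
  have hds : HasCompactSupport fun x => pd φ x j := by
    simp only [PK.pd_eq_fderiv hφs]
    exact (hφ.2.1.fderiv (𝕜 := ℝ)).comp_left (g := fun L : V →L[ℝ] ℝ => L (Pi.single j 1)) rfl
  obtain ⟨A', hA'⟩ := hds.exists_bound_of_continuous hdc
  have hIU : IntegrableOn (fun x => U x i j) Q0 := PK.InLp.integrableOn hp volume_Q0_ne_top
    (hU.2.1 i j)
  have hIu : IntegrableOn (fun x => u x i) Q0 := PK.InLp.integrableOn hp volume_Q0_ne_top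
    (hU.1 i)
  have hec : ∀ n, Continuous (eta n) := fun n => (eta_contDiff n).continuous
  have heb : ∀ n x, ‖eta n x‖ ≤ 1 := fun n x => by
    rw [Real.norm_of_nonneg (eta_nonneg n x)]; exact eta_le_one n x
  have hmem : ∀ᵐ x ∂(volume.restrict Q0), x ∈ Q0 := ae_restrict_mem isOpen_Q0.measurableSet
  have T1 : Tendsto (fun n => ∫ x in Q0, (φ x * eta n x) * U x i j) atTop
      (𝓝 (∫ x in Q0, φ x * U x i j)) := by
    refine tendsto_integral_of_dominated_convergence (fun x => A * ‖U x i j‖) (fun n => ?_)
      (hIU.norm.const_mul A) (fun n => ?_) ?_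
    · exact (hφc.mul (hec n)).aestronglyMeasurable.mul hIU.aestronglyMeasurable
    · refine Eventually.of_forall fun x => ?_
      rw [norm_mul, norm_mul]
      calc ‖φ x‖ * ‖eta n x‖ * ‖U x i j‖ ≤ A * 1 * ‖U x i j‖ := by
            gcongr
            · exact hA x
            · exact heb n x
        _ = _ := by ring
    · filter_upwards [hmem] with x hx
      have := ((tendsto_eta hx).const_mul (φ x)).mul_const (U x i j)
      rwa [mul_one] at this
  have T2 : Tendsto (fun n => ∫ x in Q0, (pd φ x j * eta n x) * u x i) atTop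
      (𝓝 (∫ x in Q0, pd φ x j * u x i)) := by
    refine tendsto_integral_of_dominated_convergence (fun x => A' * ‖u x i‖) (fun n => ?_)
      (hIu.norm.const_mul A') (fun n => ?_) ?_
    · exact (hdc.mul (hec n)).aestronglyMeasurable.mul hIu.aestronglyMeasurable
    · refine Eventually.of_forall fun x => ?_
      rw [norm_mul, norm_mul]
      calc ‖pd φ x j‖ * ‖eta n x‖ * ‖u x i‖ ≤ A' * 1 * ‖u x i‖ := by
            gcongr
            · exact (norm_nonneg _).trans (hA' x)
            · exact hA' x
            · exact heb n x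
        _ = _ := by ring
    · filter_upwards [hmem] with x hx
      have := ((tendsto_eta hx).const_mul (pd φ x j)).mul_const (u x i)
      rwa [mul_one] at this
  have T3 := tendsto_err hu hA i j
  have hev : ∀ᶠ n : ℕ in atTop, ∫ x in Q0, (φ x * eta n x) * U x i j =
      -((∫ x in Q0, (pd φ x j * eta n x) * u x i) + ∫ x in Q0,
      (φ x * (deriv (st n) (x j) * ∏ l ∈ Finset.univ.erase j, st n (x l))) * u x i) := by
    filter_upwards [eventually_gt_atTop 0] with n hn
    have htest : IsTest Q0 (fun x => φ x * eta n x) := by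
      refine ⟨(hφs.mul (eta_contDiff n)).contDiffOn, hφ.2.1.mul_right, ?_⟩
      exact (closure_mono fun x hx => right_ne_zero_of_mul hx).trans (tsupport_eta hn)
    have h1 := hU.2.2 _ htest i j
    unfold St.int at h1
    rw [h1, ← integral_add]
    · congr 1
      refine integral_congr_ae (ae_of_all _ fun x => ?_)
      simp only [pd_mul_eta hφs n x j]
      ring
    · exact hIu.bdd_mul (c := A' * 1) (hdc.mul (hec n)).aestronglyMeasurable (ae_of_all _ fun x => by
        rw [norm_mul]
        gcongr
        · exact (norm_nonneg _).trans (hA' x)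
        · exact hA' x
        · exact heb n x)
    · obtain ⟨M, hM, hMb⟩ := exists_deriv_bound
      have hcc : Continuous fun x : V =>
          φ x * (deriv (st n) (x j) * ∏ l ∈ Finset.univ.erase j, st n (x l)) := by
        refine hφc.mul (Continuous.mul ?_ ?_)
        · exact ((st_contDiff n).continuous_deriv (by simp)).comp (continuous_apply j)
        · exact continuous_finsetProd _ fun l _ =>
            (st_contDiff n).continuous.comp (continuous_apply l)
      refine hIu.bdd_mul (c := A * ((n * M) * 1)) hcc.aestronglyMeasurable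
        (ae_of_all _ fun x => ?_)
      have e2 : ‖∏ l ∈ Finset.univ.erase j, st n (x l)‖ ≤ 1 := by
        rw [Real.norm_of_nonneg (Finset.prod_nonneg fun _ _ => st_nonneg n _)]
        exact Finset.prod_le_one (fun _ _ => st_nonneg n _) fun _ _ => st_le_one n _
      have e3 : ‖deriv (st n) (x j)‖ ≤ n * M := hMb n (x j)
      rw [norm_mul, norm_mul]
      gcongr
      exact hA x
  have T4 := (T2.add T3).neg
  rw [add_zero] at T4
  exact tendsto_nhds_unique T1 (T4.congr' (hev.mono fun n hn => hn.symm))

end weak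

/-- **(RED-C2)** -/
theorem specZero : SpecZero := by
  intro p u U hp hU hu hb
  have hc := continuous_ext hu hb
  refine ⟨hc, fun i => ?_, fun i j => ?_, fun φ hφ i j => ?_⟩
  · have h1 := (memLp_indicator_iff_restrict (μ := volume) isOpen_Q0.measurableSet).2 (hU.1 i)
    unfold InLp
    rw [Measure.restrict_univ]
    convert h1 using 1
    funext x
    exact indicator_apply' u x i
  · have h1 := (memLp_indicator_iff_restrict (μ := volume) isOpen_Q0.measurableSet).2 (hU.2.1 i j)
    unfold InLp
    rw [Measure.restrict_univ]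
    convert h1 using 1
    funext x
    rw [indicator_apply']
    exact indicator_apply' (fun x => U x i) x j
  · have h1 := weak_ext hp hU hc hφ i j
    unfold St.int
    rw [Measure.restrict_univ]
    have e1 : ∀ x, φ x * Q0.indicator U x i j = Q0.indicator (fun x => φ x * U x i j) x := by
      intro x
      by_cases hx : x ∈ Q0
      · rw [indicator_of_mem hx, indicator_of_mem hx]
      · rw [indicator_of_notMem hx, indicator_of_notMem hx]; exact mul_zero _
    have e2 : ∀ x, pd φ x j * Q0.indicator u x i = Q0.indicator (fun x => pd φ x j * u x i) x := by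
      intro x
      by_cases hx : x ∈ Q0
      · rw [indicator_of_mem hx, indicator_of_mem hx]
      · rw [indicator_of_notMem hx, indicator_of_notMem hx]; exact mul_zero _
    simp only [e1, e2]
    rw [integral_indicator isOpen_Q0.measurableSet, integral_indicator isOpen_Q0.measurableSet]
    exact h1

end Vale.Agent.P073.RED
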