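import Vale.Agent.P073.PK.Sob560a

/-!
# Sobolev maps: difference and restriction
-/

namespace Vale.Agent.P073.RED

open MeasureTheory Set Filter Topology Metric Vale.Agent.P073.St
open scoped ContDiff ENNReal

namespace B933

variable {Ω : Set V} {φ : V → ℝ}

/-- the functions `φ u` and `∂_j φ u` are integrable for an integrable `u` and a test function -/
theorem int_mul (hφ : IsTest Ω φ) {u : V → ℝ} (hu : IntegrableOn u Ω) :
    IntegrableOn (fun x => φ x * u x) Ω ∧ ∀ j, IntegrableOn (fun x => pd φ x j * u x) Ω := by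
  obtain ⟨h1, h2, -⟩ := hφ
  have hs : ContDiff ℝ ∞ φ := contDiffOn_univ.1 h1
  constructor
  · obtain ⟨C, hC⟩ := h2.exists_bound_of_continuous hs.continuous
    exact hu.bdd_mul hs.continuous.aestronglyMeasurable (ae_of_all _ hC)
  · intro j
    have hd : Continuous fun x => fderiv ℝ φ x (Pi.single j 1) :=
      (hs.continuous_fderiv (by simp)).clm_apply continuous_const
    have hds : HasCompactSupport fun x => fderiv ℝ φ x (Pi.single j 1) :=
      (h2.fderiv (𝕜 := ℝ)).comp_left (g := fun L : V →L[ℝ] ℝ => L (Pi.single j 1)) rfl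
    obtain ⟨C, hC⟩ := hds.exists_bound_of_continuous hd
    simp only [PK.pd_eq_fderiv hs]
    exact hu.bdd_mul hd.aestronglyMeasurable (ae_of_all _ hC)

/-- the partial derivatives of a test function vanish outside the support -/
theorem pd_zero (hφ : IsTest Ω φ) {x : V} (hx : x ∉ Ω) (j : Fin 3) : pd φ x j = 0 := by
  obtain ⟨h1, h2, h3⟩ := hφ
  have hs : ContDiff ℝ ∞ φ := contDiffOn_univ.1 h1
  rw [PK.pd_eq_fderiv hs]
  have h4 : fderiv ℝ φ x = 0 := by
    by_contra hne
    exact hx (h3 (support_fderiv_subset ℝ hne))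
  rw [h4]
  rfl

theorem zero_of (hφ : IsTest Ω φ) {x : V} (hx : x ∉ Ω) : φ x = 0 :=
  image_eq_zero_of_notMem_tsupport fun h => hx (hφ.2.2 h)

theorem int_eq {U : Set V} (hU : IsOpen U) (hUΩ : U ⊆ Ω) {w : V → ℝ} (hw : ∀ x, x ∉ U → w x = 0) :
    int Ω w = int U w := by
  have e : w = U.indicator w := by
    funext x
    by_cases hx : x ∈ U
    · rw [indicator_of_mem hx]
    · rw [indicator_of_notMem hx, hw x hx]
  unfold int
  conv_lhs => rw [e]
  rw [setIntegral_indicator hU.measurableSet, inter_eq_self_of_subset_right hUΩ]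

end B933

open B933

theorem isSobolev_sub {p : ℝ} {Ω : Set V} {f g : V → V} {F G : V → Mat} (hp : 1 ≤ p)
    (_hΩ : IsOpen Ω) (hv : volume Ω ≠ ⊤) (h : IsSobolev p Ω f F) (h' : IsSobolev p Ω g G) :
    IsSobolev p Ω (fun x => f x - g x) (fun x => F x - G x) := by
  refine ⟨fun i => (h.1 i).sub (h'.1 i), fun i j => (h.2.1 i j).sub (h'.2.1 i j), ?_⟩
  intro φ hφ i j
  have a1 := (int_mul hφ (PK.InLp.integrableOn hp hv (h.2.1 i j))).1
  have a2 := (int_mul hφ (PK.InLp.integrableOn hp hv (h'.2.1 i j))).1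
  have a3 := (int_mul hφ (PK.InLp.integrableOn hp hv (h.1 i))).2 j
  have a4 := (int_mul hφ (PK.InLp.integrableOn hp hv (h'.1 i))).2 j
  have k1 := h.2.2 φ hφ i j
  have k2 := h'.2.2 φ hφ i j
  unfold int at k1 k2 ⊢
  have e1 : ∀ x, φ x * (F x - G x) i j = φ x * F x i j - φ x * G x i j := fun x => by
    rw [Pi.sub_apply, Pi.sub_apply]; ring
  have e2 : ∀ x, pd φ x j * (f x - g x) i = pd φ x j * f x i - pd φ x j * g x i := fun x => by
    rw [Pi.sub_apply]; ring
  simp only [e1, e2]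
  rw [integral_sub a1 a2, integral_sub a3 a4, k1, k2]
  ring

theorem isSobolev_mono {p : ℝ} {U Ω : Set V} {f : V → V} {F : V → Mat} (hU : IsOpen U)
    (hUΩ : U ⊆ Ω) (h : IsSobolev p Ω f F) : IsSobolev p U f F := by
  refine ⟨fun i => (h.1 i).mono_measure (Measure.restrict_mono hUΩ le_rfl),
    fun i j => (h.2.1 i j).mono_measure (Measure.restrict_mono hUΩ le_rfl), ?_⟩
  intro φ hφ i j
  have h1 := h.2.2 φ ⟨hφ.1, hφ.2.1, hφ.2.2.trans hUΩ⟩ i j
  rw [int_eq hU hUΩ (w := fun x => φ x * F x i j), int_eq hU hUΩ (w := fun x => pd φ x j * f x i)]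
    at h1
  · exact h1
  · intro x hx
    rw [pd_zero hφ hx, zero_mul]
  · intro x hx
    rw [zero_of hφ hx, zero_mul]

end Vale.Agent.P073.RED
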