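import Vale.Agent.P073.RED.M1
import Vale.Agent.P073.RED.FineOf
import Vale.Agent.P073.RED.Vit
import Vale.Agent.P073.RED.Aff907
import Vale.Agent.P073.RED.Zero
import Vale.Agent.P073.RED.Leb
import Vale.Agent.P073.RED.Basis894
import Vale.Agent.P073.RED.GlueH225
import Vale.Agent.P073.RED.Red225
import Vale.Agent.P073.RED720.GlueS
import Vale.Agent.P073.Spec.Top

/-!
# RED: the full theorem from finite distortion and the local theorems of rank one and two
-/

namespace Vale.Agent.P073.RED

open MeasureTheory Set Filter Topology Metric Vale.Agent.P073.St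
open Vale.Agent.P073.AB (SpecFD approximable_of)
open scoped ENNReal

/-- the fine cells exist -/
theorem specFine (h1 : SpecLoc1) (h2 : SpecLoc2) : SpecFine :=
  specFineOf h1 h2 specAff specZero specLeb specBasis

/-- the theorem in error form -/
theorem specAllErr (hFD : SpecFD) (h1 : SpecLoc1) (h2 : SpecLoc2) : SpecAllErr :=
  specRED (specM1 hFD) (specFine h1 h2) specVit specGlueH specGlueS

/-- **The final statement** from finite distortion and the local theorems. -/
theorem final_of (hFD : SpecFD) (h1 : SpecLoc1) (h2 : SpecLoc2) : P073.Top.Final := by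
  intro p Ω Λ f F hp hp2 hΩ hΛ hf hF
  have hc : ContinuousOn f Ω := by
    obtain ⟨h, _, hc, _⟩ := hf
    exact hc
  refine approximable_of hp hp2 hΩ hΛ hc hF (b := fun k : ℕ => ENNReal.ofReal (1 / ((k : ℝ) + 1)))
    ?_ (fun k => ENNReal.ofReal_ne_top) fun k => ?_
  · rw [← ENNReal.ofReal_zero]
    exact ENNReal.tendsto_ofReal tendsto_one_div_add_atTop_nhds_zero_nat
  · exact specAllErr hFD h1 h2 p Ω Λ f F hp hp2 hΩ hΛ hf hF _ (by positivity)

end Vale.Agent.P073.RED
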