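import Vale.Agent.P073.RED.Geom

/-!
# RED: from the local theorem to fine good cells
-/

namespace Vale.Agent.P073.RED

open MeasureTheory Set Filter Topology Metric Vale.Agent.P073.St
open Vale.Agent.P073.SQ (ev)
open Vale.Agent.P073.AB (cl)
open scoped ContDiff ENNReal

variable {p : ℝ} {Ω Λ : Set V} {f : V → V} {F : V → Mat}

/-- the image of an open set under a homeomorphism is open -/
theorem isOpen_image_homeo (hΛ : IsOpen Λ) (hf : IsHomeo Ω Λ f) {D : Set V} (hD : IsOpen D)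
    (hDΩ : D ⊆ Ω) : IsOpen (f '' D) := by
  obtain ⟨h, ⟨h1, h2⟩, -, hc⟩ := hf
  have e : f '' D = Λ ∩ h ⁻¹' D := by
    ext y
    constructor
    · rintro ⟨x, hx, rfl⟩
      refine ⟨(h1 x (hDΩ hx)).1, ?_⟩
      show h (f x) ∈ D
      rw [(h1 x (hDΩ hx)).2]; exact hx
    · rintro ⟨hy, hy'⟩
      exact ⟨h y, hy', (h2 y hy).2⟩
  rw [e]
  exact hc.isOpen_inter_preimage hΛ hD

/-- the rescaled map -/
noncomputable def resc (f : V → V) (x : V) (B : V ≃L[ℝ] V) (t : ℝ) (y : V) : V :=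
  t⁻¹ • f (x + B y)

/-- the derivative of the rescaled map -/
noncomputable def rescD (F : V → Mat) (x : V) (B : V ≃L[ℝ] V) (t : ℝ) (y : V) : Mat :=
  fun i j => t⁻¹ * ∑ k, F (x + B y) i k * B (ev j) k

/-- the image of the rescaled map -/
def rescI (f : V → V) (x : V) (B : V ≃L[ℝ] V) (t : ℝ) : Set V :=
  {w | t • w ∈ f '' interior (box x B)}

theorem box_sub_iff {x : V} {B : V ≃L[ℝ] V} (h : box x B ⊆ Ω) {y : V} (hy : y ∈ closure Q0) :
    x + B y ∈ Ω := h ⟨y, hy, rfl⟩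

theorem isHomeo_resc {x : V} {B : V ≃L[ℝ] V} {t : ℝ} (ht : 0 < t) (hf : IsHomeo Ω Λ f)
    (h : box x B ⊆ Ω) : IsHomeo Q0 (rescI f x B t) (resc f x B t) := by
  obtain ⟨g, ⟨h1, h2⟩, hc, hc'⟩ := hf
  have hΩ : ∀ y ∈ Q0, x + B y ∈ Ω := fun y hy => box_sub_iff h (subset_closure hy)
  have hint : interior (box x B) ⊆ Ω := interior_subset.trans h
  refine ⟨fun w => (aff x B).symm (g (t • w)), ⟨fun y hy => ⟨?_, ?_⟩, ?_⟩, ?_, ?_⟩
  · refine ⟨x + B y, ?_, ?_⟩
    · rw [interior_box]; exact ⟨y, hy, rfl⟩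
    · rw [resc, smul_inv_smul₀ ht.ne']
  · simp only [resc]
    rw [smul_inv_smul₀ ht.ne', (h1 _ (hΩ y hy)).2]
    exact (aff x B).symm_apply_apply y
  · rintro w ⟨z, hz, hzw⟩
    have e : g (t • w) = z := by
      rw [← hzw, (h1 z (hint hz)).2]
    simp only [e]
    refine ⟨mem_interior_box.1 hz, ?_⟩
    have e2 : x + B ((aff x B).symm z) = z := (aff x B).apply_symm_apply z
    rw [resc, e2, hzw, inv_smul_smul₀ ht.ne']
  · exact (continuous_const_smul t⁻¹).comp_continuousOn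
      (hc.comp (aff x B).continuous.continuousOn hΩ)
  · refine (aff x B).symm.continuous.comp_continuousOn ?_
    refine hc'.comp (f := fun w => t • w) (continuous_const_smul t).continuousOn ?_
    rintro w ⟨z, hz, hzw⟩
    show t • w ∈ Λ
    rw [← hzw]
    exact (h1 z (hint hz)).1

theorem continuousOn_resc {x : V} {B : V ≃L[ℝ] V} {t : ℝ} (hf : ContinuousOn f Ω)
    (h : box x B ⊆ Ω) : ContinuousOn (resc f x B t) (closure Q0) :=
  (continuous_const_smul t⁻¹).comp_continuousOn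
    (hf.comp (aff x B).continuous.continuousOn fun _ hy => box_sub_iff h hy)

theorem isBoundedDomain_rescI {x : V} {B : V ≃L[ℝ] V} {t : ℝ} (ht : 0 < t)
    (hΛ : IsBoundedDomain Λ) (hf : IsHomeo Ω Λ f) (h : box x B ⊆ Ω) :
    IsBoundedDomain (rescI f x B t) := by
  have hint : interior (box x B) ⊆ Ω := interior_subset.trans h
  have hhom := isHomeo_resc (f := f) ht hf h
  refine ⟨?_, ?_, ?_⟩
  · exact (isOpen_image_homeo hΛ.1 hf isOpen_interior hint).preimage (continuous_const_smul t)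
  · obtain ⟨g, ⟨h1, h2⟩, hc, hc'⟩ := hhom
    have e : rescI f x B t = resc f x B t '' Q0 := by
      ext w
      constructor
      · intro hw
        exact ⟨g w, (h2 w hw).1, (h2 w hw).2⟩
      · rintro ⟨y, hy, rfl⟩
        exact (h1 y hy).1
    rw [e]
    exact ⟨Q0_nonempty.image _, convex_Q0.isPreconnected.image _ hc⟩
  · obtain ⟨D, hD0, hD⟩ := AB.norm_bound_of_domain hΛ
    obtain ⟨g, ⟨h1, h2⟩, -, -⟩ := hf
    refine ⟨2 * (t⁻¹ * D), ?_⟩
    rintro w ⟨z, hz, hzw⟩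
    refine (AB.euc_le_norm w).trans ?_
    have h3 : w = t⁻¹ • f z := by rw [hzw, inv_smul_smul₀ ht.ne']
    rw [h3, norm_smul, Real.norm_of_nonneg (by positivity)]
    have h4 := hD _ (h1 z (hint hz)).1
    gcongr

theorem cl_rescD {x : V} {B : V ≃L[ℝ] V} {t : ℝ} (y : V) (j : Fin 3) :
    cl (rescD F x B t y) (ev j) = t⁻¹ • cl (F (x + B y)) (B (ev j)) :=
  cl_mul (F (x + B y)) t⁻¹ B j

end Vale.Agent.P073.RED
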