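import Vale.Agent.P073.RED.Fine

/-!
# RED: the cell from the local theorem
-/

namespace Vale.Agent.P073.RED

open MeasureTheory Set Filter Topology Metric Vale.Agent.P073.St
open Vale.Agent.P073.SQ (ev)
open Vale.Agent.P073.AB (cl)
open scoped ContDiff ENNReal

variable {p : ℝ} {Ω Λ : Set V} {f : V → V} {F : V → Mat} {x : V} {B : V ≃L[ℝ] V} {t : ℝ}
  {g : V → V}

/-- the perturbation on the unit cube -/
noncomputable def pu (f : V → V) (x : V) (B : V ≃L[ℝ] V) (t : ℝ) (g : V → V) : V → V :=
  Q0.indicator fun y => g y - resc f x B t y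

/-- its derivative -/
noncomputable def pU (F : V → Mat) (x : V) (B : V ≃L[ℝ] V) (t : ℝ) (g : V → V) : V → Mat :=
  Q0.indicator fun y => jac g y - rescD F x B t y

/-- the perturbation -/
noncomputable def bu (f : V → V) (x : V) (B : V ≃L[ℝ] V) (t : ℝ) (g : V → V) (z : V) : V :=
  t • pu f x B t g (B.symm (-x) + B.symm z)

/-- its derivative -/
noncomputable def bU (F : V → Mat) (x : V) (B : V ≃L[ℝ] V) (t : ℝ) (g : V → V) (z : V) : Mat :=
  fun i j => t * ∑ k, pU F x B t g (B.symm (-x) + B.symm z) i k * B.symm (ev j) k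

theorem cl_bU (z : V) (j : Fin 3) : cl (bU F x B t g z) (ev j) =
    t • cl (pU F x B t g (B.symm (-x) + B.symm z)) (B.symm (ev j)) :=
  cl_mul _ t B.symm j

theorem bu_eq (ht : 0 < t) {z : V} (hz : z ∈ interior (box x B)) :
    f z + bu f x B t g z = t • g ((aff x B).symm z) := by
  have hy := mem_interior_box.1 hz
  have e : x + B ((aff x B).symm z) = z := (aff x B).apply_symm_apply z
  rw [bu, ← aff_symm_eq, pu, indicator_of_mem hy, smul_sub, resc, e, smul_inv_smul₀ ht.ne']
  abel

theorem bu_off {z : V} (hz : z ∉ interior (box x B)) : bu f x B t g z = 0 := by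
  have hy := fun h => hz (mem_interior_box.2 h)
  rw [bu, ← aff_symm_eq, pu, indicator_of_notMem hy, smul_zero]

theorem bU_off {z : V} (hz : z ∉ interior (box x B)) : bU F x B t g z = 0 := by
  have hy := fun h => hz (mem_interior_box.2 h)
  funext i j
  rw [bU, ← aff_symm_eq, pU, indicator_of_notMem hy]
  simp

theorem diffeo_bu (ht : 0 < t) (hg : IsDiffeo Q0 (rescI f x B t) g) :
    IsDiffeo (interior (box x B)) (f '' interior (box x B)) (fun z => f z + bu f x B t g z) := by
  have hcg := SQ.isDiffeo_cd hg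
  obtain ⟨h, ⟨h1, h2⟩, h3, h4⟩ := hg
  have hch : ContDiffOn ℝ ∞ h (rescI f x B t) := contDiffOn_pi.2 h4
  have hsc : ∀ w ∈ f '' interior (box x B), t⁻¹ • w ∈ rescI f x B t := by
    intro w hw
    show t • t⁻¹ • w ∈ f '' interior (box x B)
    rwa [smul_inv_smul₀ ht.ne']
  refine ⟨fun w => aff x B (h (t⁻¹ • w)), ⟨fun z hz => ?_, fun w hw => ?_⟩, ?_, ?_⟩
  · have hy := mem_interior_box.1 hz
    simp only [bu_eq ht hz]
    refine ⟨(h1 _ hy).1, ?_⟩
    rw [inv_smul_smul₀ ht.ne', (h1 _ hy).2, (aff x B).apply_symm_apply]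
  · have hy := (h2 _ (hsc w hw)).1
    have hz : aff x B (h (t⁻¹ • w)) ∈ interior (box x B) := by
      rw [interior_box]; exact ⟨_, hy, rfl⟩
    refine ⟨hz, ?_⟩
    simp only [bu_eq ht hz]
    rw [(aff x B).symm_apply_apply, (h2 _ (hsc w hw)).2, smul_inv_smul₀ ht.ne']
  · refine contDiffOn_pi.1 ?_
    have h5 : ContDiffOn ℝ ∞ (fun z => t • g ((aff x B).symm z)) (interior (box x B)) := by
      refine ContDiffOn.const_smul t ?_
      refine hcg.comp (f := fun z => (aff x B).symm z) ?_ fun z hz => mem_interior_box.1 hz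
      have h6 : ContDiff ℝ ∞ fun z => (aff x B).symm z :=
        B.symm.contDiff.comp (contDiff_const.add contDiff_id)
      exact h6.contDiffOn
    exact h5.congr fun z hz => bu_eq ht hz
  · refine contDiffOn_pi.1 ?_
    have h6 : ContDiff ℝ ∞ fun y => aff x B y := contDiff_const.add B.contDiff
    refine h6.comp_contDiffOn ?_
    exact hch.comp (f := fun w => t⁻¹ • w) (contDiff_const_smul t⁻¹).contDiffOn hsc

theorem der_bu (ht : 0 < t) (hg : ContDiffOn ℝ ∞ g Q0) {z : V}
    (hz : z ∈ interior (box x B)) :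
    cl (F z + bU F x B t g z) = fderiv ℝ (fun z => f z + bu f x B t g z) z := by
  have hy := mem_interior_box.1 hz
  have e : x + B ((aff x B).symm z) = z := (aff x B).apply_symm_apply z
  have h1 : (fun z => f z + bu f x B t g z) =ᶠ[𝓝 z] fun z => t • g ((aff x B).symm z) := by
    filter_upwards [isOpen_interior.mem_nhds hz] with w hw using bu_eq ht hw
  have h2 : HasFDerivAt (fun z => t • g ((aff x B).symm z))
      (t • (fderiv ℝ g ((aff x B).symm z)).comp (B.symm : V →L[ℝ] V)) z := by
    have h3 : HasFDerivAt g (fderiv ℝ g ((aff x B).symm z)) ((aff x B).symm z) :=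
      ((hg.contDiffAt (open_Q0.mem_nhds hy)).differentiableAt (by simp)).hasFDerivAt
    have h4 : HasFDerivAt (fun z => (aff x B).symm z) (B.symm : V →L[ℝ] V) z := by
      have h5 : HasFDerivAt (fun z => B.symm (-x) + B.symm z) (B.symm : V →L[ℝ] V) z :=
        (B.symm : V →L[ℝ] V).hasFDerivAt.const_add _
      refine h5.congr_of_eventuallyEq (Eventually.of_forall fun w => ?_)
      exact aff_symm_eq x B w
    exact (h3.comp z h4).const_smul t
  rw [h1.fderiv_eq, h2.fderiv]
  refine clm_ext fun j => ?_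
  rw [cl_add, add_apply, cl_bU, ← aff_symm_eq, pU, indicator_of_mem hy,
    cl_sub, sub_apply, cl_jac open_Q0 hg hy, smul_sub]
  have h6 : t • cl (rescD F x B t ((aff x B).symm z)) (B.symm (ev j)) = cl (F z) (ev j) := by
    have h7 : cl (rescD F x B t ((aff x B).symm z)) =
        t⁻¹ • (cl (F z)).comp (B : V →L[ℝ] V) := by
      refine clm_ext fun j => ?_
      rw [cl_rescD, e]
      rfl
    rw [h7]
    show t • t⁻¹ • cl (F z) (B (B.symm (ev j))) = _
    rw [B.apply_symm_apply, smul_inv_smul₀ ht.ne']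
  rw [h6]
  show cl (F z) (ev j) + (t • fderiv ℝ g ((aff x B).symm z) (B.symm (ev j)) - _) =
    t • fderiv ℝ g ((aff x B).symm z) (B.symm (ev j))
  abel

end Vale.Agent.P073.RED
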