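import Vale.Agent.P073.RED.Fine2
import Vale.Agent.P073.RED.Basic933
import Vale.Agent.P073.PK.Sob560b

/-!
# RED: fine good cells
-/

namespace Vale.Agent.P073.RED

open MeasureTheory Set Filter Topology Metric Vale.Agent.P073.St
open Vale.Agent.P073.SQ (ev)
open Vale.Agent.P073.AB (cl)
open scoped ContDiff ENNReal

variable {p : ℝ} {Ω Λ : Set V} {f : V → V} {F : V → Mat} {x : V} {B : V ≃L[ℝ] V} {t : ℝ}
  {g : V → V}

theorem sobolev_resc (hAff : SpecAff) (hp : 1 ≤ p) (hΩ : IsOpen Ω) (hF : IsSobolev p Ω f F)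
    (h : box x B ⊆ Ω) : IsSobolev p Q0 (resc f x B t) (rescD F x B t) := by
  have h1 := hAff p Ω f F B x t⁻¹ hp hΩ hF
  exact isSobolev_mono open_Q0 (fun y hy => box_sub_iff h (subset_closure hy)) h1

/-- finite energy of the diffeomorphism -/
theorem energy_ne_top (hp : 1 ≤ p) (hp2 : p < 2) {f : V → V} {F : V → Mat}
    (hF : IsSobolev p Q0 f F)
    (hE : ∑ j, ∫⁻ y in Q0, ENNReal.ofReal (‖fderiv ℝ g y (ev j) - cl (F y) (ev j)‖ ^ p) ≠ ⊤)
    (j : Fin 3) : ∫⁻ y in Q0, ENNReal.ofReal (‖fderiv ℝ g y (ev j)‖ ^ p) ≠ ⊤ := by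
  have hm : AEMeasurable (fun y => ENNReal.ofReal (‖cl (F y) (ev j)‖ ^ p))
      (volume.restrict Q0) :=
    (aemeasurable_indicator_iff open_Q0.measurableSet).1
      (PK.aemeasurable_dE open_Q0.measurableSet hF (ev j))
  have hfin : ∫⁻ y in Q0, ENNReal.ofReal (‖cl (F y) (ev j)‖ ^ p) ≠ ⊤ := by
    have := PK.lintegral_dE_ne_top hp open_Q0.measurableSet hF j
    rwa [lintegral_indicator open_Q0.measurableSet] at this
  have h1 : ∫⁻ y in Q0, ENNReal.ofReal (‖fderiv ℝ g y (ev j)‖ ^ p) ≤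
      2 * ((∫⁻ y in Q0, ENNReal.ofReal (‖fderiv ℝ g y (ev j) - cl (F y) (ev j)‖ ^ p)) +
        ∫⁻ y in Q0, ENNReal.ofReal (‖cl (F y) (ev j)‖ ^ p)) := by
    rw [← lintegral_add_right' _ hm, ← lintegral_const_mul' _ _ (by norm_num)]
    refine lintegral_mono fun y => ?_
    have := AB.add_rpow_le hp hp2 (fderiv ℝ g y (ev j) - cl (F y) (ev j)) (cl (F y) (ev j))
    rwa [sub_add_cancel] at this
  refine ne_top_of_le_ne_top (ENNReal.mul_ne_top (by norm_num) (ENNReal.add_ne_top.2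
    ⟨?_, hfin⟩)) h1
  exact ENNReal.sum_ne_top.1 hE j (Finset.mem_univ j)

theorem sobolev_pert (hAff : SpecAff) (hp : 1 ≤ p) (hp2 : p < 2) (hΩ : IsOpen Ω)
    (hF : IsSobolev p Ω f F) (h : box x B ⊆ Ω) {Λ' : Set V} (hΛ' : IsBoundedDomain Λ')
    (hg : IsDiffeo Q0 Λ' g)
    (hE : ∑ j, ∫⁻ y in Q0, ENNReal.ofReal (‖fderiv ℝ g y (ev j) -
      cl (rescD F x B t y) (ev j)‖ ^ p) ≠ ⊤) :
    IsSobolev p Q0 (fun y => g y - resc f x B t y) (fun y => jac g y - rescD F x B t y) := by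
  have h1 := sobolev_resc (t := t) hAff hp hΩ hF h
  obtain ⟨D, hD0, hD⟩ := AB.norm_bound_of_domain hΛ'
  have hv : volume Q0 ≠ ⊤ := by rw [volume_Q0]; exact ENNReal.one_ne_top
  have h2 : IsSobolev p Q0 g (jac g) := AB.isSobolev_of_smooth hp open_Q0 hv
    (SQ.isDiffeo_cd hg) (D := D) (fun y hy => hD _ (SQ.isDiffeo_mapsTo hg hy))
    (energy_ne_top hp hp2 h1 hE)
  exact isSobolev_sub hp open_Q0 hv h2 h1

/-- the energy of the perturbation -/
theorem small_bU (hp : 1 ≤ p) (hS : IsSobolev p Q0 (resc f x B t) (rescD F x B t))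
    (hg : ContDiffOn ℝ ∞ g Q0) {M : ℝ} (hM : 0 ≤ M)
    (hB : ∀ j k, |t * B.symm (ev j) k| ≤ M) {e : ℝ≥0∞}
    (hE : ∑ j, ∫⁻ y in Q0, ENNReal.ofReal (‖fderiv ℝ g y (ev j) -
      cl (rescD F x B t y) (ev j)‖ ^ p) ≤ e) :
    ∑ j, ∫⁻ z in box x B, ENNReal.ofReal (‖cl (bU F x B t g z) (ev j)‖ ^ p) ≤
      ENNReal.ofReal |LinearMap.det (B : V →ₗ[ℝ] V)| *
        (3 * (ENNReal.ofReal (M ^ p * 3 ^ p) * e)) := by
  have h1 : ∀ j, ∫⁻ z in box x B, ENNReal.ofReal (‖cl (bU F x B t g z) (ev j)‖ ^ p) ≤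
      ENNReal.ofReal |LinearMap.det (B : V →ₗ[ℝ] V)| * (ENNReal.ofReal (M ^ p * 3 ^ p) * e) := by
    intro j
    rw [lintegral_box']
    gcongr
    calc ∫⁻ y in Q0, ENNReal.ofReal (‖cl (bU F x B t g (x + B y)) (ev j)‖ ^ p)
        ≤ ∫⁻ y in Q0, ENNReal.ofReal (M ^ p * 3 ^ p) * ∑ k, ENNReal.ofReal
          (‖fderiv ℝ g y (ev k) - cl (rescD F x B t y) (ev k)‖ ^ p) := by
          refine setLIntegral_mono' open_Q0.measurableSet fun y hy => ?_
          have e1 : B.symm (-x) + B.symm (x + B y) = y := by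
            rw [← map_add, neg_add_cancel_left, B.symm_apply_apply]
          set S : V →L[ℝ] V := fderiv ℝ g y - cl (rescD F x B t y) with hS
          have e2 : cl (bU F x B t g (x + B y)) (ev j) = S (t • B.symm (ev j)) := by
            rw [cl_bU, e1, pU, indicator_of_mem hy, cl_sub, cl_jac open_Q0 hg hy, map_smul]
          have e3 : ‖S (t • B.symm (ev j))‖ ≤ M * ∑ k, ‖S (ev k)‖ :=
            norm_clm_le S fun k => by simpa using hB j k
          rw [e2]
          calc ENNReal.ofReal (‖S (t • B.symm (ev j))‖ ^ p)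
              ≤ ENNReal.ofReal (M ^ p * 3 ^ p * ∑ k, ‖S (ev k)‖ ^ p) := by
                refine ENNReal.ofReal_le_ofReal ?_
                calc ‖S (t • B.symm (ev j))‖ ^ p ≤ (M * ∑ k, ‖S (ev k)‖) ^ p :=
                      Real.rpow_le_rpow (norm_nonneg _) e3 (by linarith)
                  _ = M ^ p * (∑ k, ‖S (ev k)‖) ^ p :=
                      Real.mul_rpow hM (Finset.sum_nonneg fun _ _ => norm_nonneg _)
                  _ ≤ M ^ p * (3 ^ p * ∑ k, ‖S (ev k)‖ ^ p) := by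
                      gcongr
                      exact SQ.sum_rpow_le (fun _ => norm_nonneg _) hp
                  _ = _ := by ring
            _ = _ := by
                rw [ENNReal.ofReal_mul (by positivity),
                  ENNReal.ofReal_sum_of_nonneg fun _ _ => by positivity]
                rfl
      _ = ENNReal.ofReal (M ^ p * 3 ^ p) * ∫⁻ y in Q0, ∑ k, ENNReal.ofReal
          (‖fderiv ℝ g y (ev k) - cl (rescD F x B t y) (ev k)‖ ^ p) :=
          lintegral_const_mul' _ _ ENNReal.ofReal_ne_top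
      _ ≤ _ := by
          gcongr
          refine le_trans (le_of_eq ?_) hE
          refine lintegral_finsetSum' _ fun k _ => ?_
          refine AEMeasurable.ennreal_ofReal (AEMeasurable.pow_const ?_ p)
          refine ((measurable_fderiv_apply_const ℝ g (ev k)).aestronglyMeasurable.sub
            ?_).norm.aemeasurable
          exact (ContinuousLinearMap.apply ℝ V (ev k)).continuous.comp_aestronglyMeasurable
            (PK.IsSob.aesm hS)
  calc ∑ j, ∫⁻ z in box x B, ENNReal.ofReal (‖cl (bU F x B t g z) (ev j)‖ ^ p)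
      ≤ ∑ _j : Fin 3, ENNReal.ofReal |LinearMap.det (B : V →ₗ[ℝ] V)| *
        (ENNReal.ofReal (M ^ p * 3 ^ p) * e) := Finset.sum_le_sum fun j _ => h1 j
    _ = _ := by
      rw [Finset.sum_const, Finset.card_univ, Fintype.card_fin, nsmul_eq_mul]
      push_cast
      ring

end Vale.Agent.P073.RED
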