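import Vale.Agent.P073.RED.Spec

/-!
# RED: geometry of the unit cube and its affine images
-/

namespace Vale.Agent.P073.RED

open MeasureTheory Set Filter Topology Metric Vale.Agent.P073.St
open Vale.Agent.P073.SQ (ev)
open Vale.Agent.P073.AB (cl)
open scoped ContDiff ENNReal

theorem Q0_eq : Q0 = pi univ fun _ : Fin 3 => Ioo (0:ℝ) 1 := by
  ext x; simp only [Q0, mem_ofPred_eq, Set.mem_pi, mem_Ioo, mem_univ, true_imp_iff]

theorem open_Q0 : IsOpen Q0 := by
  rw [Q0_eq]; exact isOpen_set_pi finite_univ fun _ _ => isOpen_Ioo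

theorem closure_Q0 : closure Q0 = pi univ fun _ : Fin 3 => Icc (0:ℝ) 1 := by
  rw [Q0_eq, closure_pi_set]
  simp [closure_Ioo]

theorem mem_clQ0 {x : V} : x ∈ closure Q0 ↔ ∀ i, 0 ≤ x i ∧ x i ≤ 1 := by
  rw [closure_Q0]; simp only [Set.mem_pi, mem_Icc, mem_univ, true_imp_iff]

theorem isCompact_closure_Q0 : IsCompact (closure Q0) := by
  rw [closure_Q0]; exact isCompact_univ_pi fun _ => isCompact_Icc

theorem interior_closure_Q0 : interior (closure Q0) = Q0 := by
  rw [closure_Q0, interior_pi_set finite_univ, Q0_eq]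
  simp

theorem convex_Q0 : Convex ℝ Q0 := by
  rw [Q0_eq]; exact convex_pi fun _ _ => convex_Ioo _ _

theorem convex_closure_Q0 : Convex ℝ (closure Q0) := convex_Q0.closure

theorem Q0_nonempty : Q0.Nonempty := ⟨fun _ => 1 / 2, fun _ => by norm_num⟩

theorem volume_Q0 : volume Q0 = 1 := by
  rw [Q0_eq, Real.volume_pi_Ioo]; simp

theorem norm_le_of_mem {x : V} (hx : x ∈ closure Q0) : ‖x‖ ≤ 1 := by
  rw [mem_clQ0] at hx
  rw [pi_norm_le_iff_of_nonneg zero_le_one]
  intro i
  rw [Real.norm_eq_abs, abs_of_nonneg (hx i).1]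
  exact (hx i).2

/-! ## affine images -/

/-- the affine homeomorphism `y ↦ x + B y` -/
noncomputable def aff (x : V) (B : V ≃L[ℝ] V) : V ≃ₜ V :=
  B.toHomeomorph.trans (Homeomorph.addLeft x)

theorem aff_apply (x : V) (B : V ≃L[ℝ] V) (y : V) : aff x B y = x + B y := rfl

theorem aff_symm_apply (x : V) (B : V ≃L[ℝ] V) (z : V) :
    (aff x B).symm z = B.symm (-x + z) := rfl

theorem aff_symm_eq (x : V) (B : V ≃L[ℝ] V) (z : V) :
    (aff x B).symm z = B.symm (-x) + B.symm z := by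
  rw [aff_symm_apply, map_add]

/-- the closed parallelepiped -/
noncomputable def box (x : V) (B : V ≃L[ℝ] V) : Set V := aff x B '' closure Q0

theorem isCompact_box (x : V) (B : V ≃L[ℝ] V) : IsCompact (box x B) :=
  isCompact_closure_Q0.image (aff x B).continuous

theorem interior_box (x : V) (B : V ≃L[ℝ] V) : interior (box x B) = aff x B '' Q0 := by
  rw [box, ← (aff x B).image_interior, interior_closure_Q0]

theorem convex_box (x : V) (B : V ≃L[ℝ] V) : Convex ℝ (box x B) := by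
  have e : box x B = (fun z => x + z) '' (B '' closure Q0) := by
    rw [image_image]; rfl
  rw [e]
  exact (convex_closure_Q0.linear_image (B : V →ₗ[ℝ] V)).translate x

theorem frontier_box (x : V) (B : V ≃L[ℝ] V) : volume (frontier (box x B)) = 0 :=
  (convex_box x B).addHaar_frontier volume

theorem mem_interior_box {x : V} {B : V ≃L[ℝ] V} {z : V} :
    z ∈ interior (box x B) ↔ (aff x B).symm z ∈ Q0 := by
  rw [interior_box]
  constructor
  · rintro ⟨y, hy, rfl⟩
    rwa [Homeomorph.symm_apply_apply]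
  · intro h
    exact ⟨_, h, (aff x B).apply_symm_apply z⟩

theorem lintegral_box (x : V) (B : V ≃L[ℝ] V) (h : V → ℝ≥0∞) :
    ∫⁻ z in interior (box x B), h z =
      ENNReal.ofReal |LinearMap.det (B : V →ₗ[ℝ] V)| * ∫⁻ y in Q0, h (x + B y) := by
  rw [interior_box, lintegral_image_eq_lintegral_abs_det_fderiv_mul volume open_Q0.measurableSet
    (f' := fun _ => (B : V →L[ℝ] V)) (fun y _ => ?_) (aff x B).injective.injOn]
  · rw [lintegral_const_mul' _ _ ENNReal.ofReal_ne_top]
    rfl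
  · have h1 : HasFDerivAt (fun y => x + B y) (B : V →L[ℝ] V) y :=
      (B : V →L[ℝ] V).hasFDerivAt.const_add x
    exact h1.hasFDerivWithinAt

theorem volume_interior_box (x : V) (B : V ≃L[ℝ] V) :
    volume (interior (box x B)) = ENNReal.ofReal |LinearMap.det (B : V →ₗ[ℝ] V)| := by
  have h := lintegral_box x B fun _ => 1
  simpa [volume_Q0] using h

theorem ae_eq_box (x : V) (B : V ≃L[ℝ] V) : (interior (box x B) : Set V) =ᵐ[volume] box x B := by
  have h : box x B ⊆ interior (box x B) ∪ frontier (box x B) := by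
    intro z hz
    by_cases h : z ∈ interior (box x B)
    · exact Or.inl h
    · exact Or.inr ⟨subset_closure hz, h⟩
  refine (ae_le_set.2 ?_).antisymm (ae_le_set.2 ?_)
  · rw [sdiff_eq_empty.2 interior_subset, measure_empty]
  · refine measure_mono_null (fun z hz => ?_) (frontier_box x B)
    exact (h hz.1).resolve_left hz.2

theorem volume_box (x : V) (B : V ≃L[ℝ] V) :
    volume (box x B) = ENNReal.ofReal |LinearMap.det (B : V →ₗ[ℝ] V)| := by
  rw [← volume_interior_box x B, measure_congr (ae_eq_box x B)]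

theorem lintegral_box' (x : V) (B : V ≃L[ℝ] V) (h : V → ℝ≥0∞) :
    ∫⁻ z in box x B, h z =
      ENNReal.ofReal |LinearMap.det (B : V →ₗ[ℝ] V)| * ∫⁻ y in Q0, h (x + B y) := by
  rw [← lintegral_box, setLIntegral_congr (ae_eq_box x B)]

/-- multiples of `B` -/
noncomputable def sc (t : ℝ) (ht : t ≠ 0) (B : V ≃L[ℝ] V) : V ≃L[ℝ] V :=
  B.trans (ContinuousLinearEquiv.smulLeft (Units.mk0 t ht))

theorem sc_apply (t : ℝ) (ht : t ≠ 0) (B : V ≃L[ℝ] V) (y : V) : sc t ht B y = t • B y := rfl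

theorem sc_symm_apply (t : ℝ) (ht : t ≠ 0) (B : V ≃L[ℝ] V) (y : V) :
    (sc t ht B).symm y = t⁻¹ • B.symm y := by
  apply (sc t ht B).injective
  rw [ContinuousLinearEquiv.apply_symm_apply, sc_apply, map_smul,
    ContinuousLinearEquiv.apply_symm_apply, smul_inv_smul₀ ht]

theorem det_sc (t : ℝ) (ht : t ≠ 0) (B : V ≃L[ℝ] V) :
    LinearMap.det (sc t ht B : V →ₗ[ℝ] V) = t ^ 3 * LinearMap.det (B : V →ₗ[ℝ] V) := by
  have h : (sc t ht B : V →ₗ[ℝ] V) = t • (B : V →ₗ[ℝ] V) := by
    ext; rfl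
  rw [h, LinearMap.det_smul]
  simp

/-! ## matrices -/

theorem cl_ev (A : Mat) (j : Fin 3) (i : Fin 3) : cl A (ev j) i = A i j := by
  rw [PK.cl_apply]
  simp [ev, Pi.single_apply]

theorem clm_ext {S T : V →L[ℝ] V} (h : ∀ j, S (ev j) = T (ev j)) : S = T := by
  ext1 v
  have hv : v = ∑ j, v j • ev j := by
    funext i; simp [ev, Finset.sum_apply, Pi.single_apply]
  rw [hv, map_sum, map_sum]
  simp only [map_smul, h]

theorem cl_add (A A' : Mat) : cl (A + A') = cl A + cl A' := by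
  refine clm_ext fun j => ?_
  funext i
  simp [cl_ev]

theorem cl_sub (A A' : Mat) : cl (A - A') = cl A - cl A' := by
  refine clm_ext fun j => ?_
  funext i
  simp [cl_ev]

theorem cl_mul (A : Mat) (t : ℝ) (B : V → V) (j : Fin 3) :
    cl (fun i j => t * ∑ k, A i k * B (ev j) k) (ev j) = t • cl A (B (ev j)) := by
  funext i
  rw [cl_ev, Pi.smul_apply, smul_eq_mul, PK.cl_apply]

theorem cl_jac {Ω : Set V} (hΩ : IsOpen Ω) {g : V → V} (hg : ContDiffOn ℝ ∞ g Ω) {x : V}
    (hx : x ∈ Ω) : cl (jac g x) = fderiv ℝ g x := by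
  refine clm_ext fun j => ?_
  funext i
  rw [cl_ev, AB.jac_eq hΩ hg hx]

theorem norm_clm_le (S : V →L[ℝ] V) {M : ℝ} {w : V} (hw : ∀ k, |w k| ≤ M) :
    ‖S w‖ ≤ M * ∑ k, ‖S (ev k)‖ := by
  have hv : w = ∑ j, w j • ev j := by
    funext i; simp [ev, Finset.sum_apply, Pi.single_apply]
  rw [hv, map_sum, Finset.mul_sum]
  refine (norm_sum_le _ _).trans (Finset.sum_le_sum fun k _ => ?_)
  rw [map_smul, norm_smul, Real.norm_eq_abs]
  exact mul_le_mul_of_nonneg_right (hw k) (norm_nonneg _)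

end Vale.Agent.P073.RED
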